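import Vale.Agent.P314.Defs

namespace Vale.Agent.P314

universe u

/-- A noncommutative algebraic branching program: an acyclic graph on the vertices `Fin size`
with an edge from `i` to `j` for `i < j`, labelled by the affine linear form
`c i j + ∑ l, L i j l * x_l`, a source and a sink. -/
structure NCABP (F : Type u) (n : ℕ) : Type u where
  size : ℕ
  c : Fin size → Fin size → F
  L : Fin size → Fin size → Fin n → F
  source : Fin size
  sink : Fin size

/-- The matrix of edge labels. -/
noncomputable def NCABP.label {F : Type u} [Field F] {n : ℕ} (P : NCABP F n) :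
    Matrix (Fin P.size) (Fin P.size) (FreeAlgebra F (Fin n)) :=
  Matrix.of fun i j => if i < j then
    algebraMap F (FreeAlgebra F (Fin n)) (P.c i j) + ∑ l, P.L i j l • FreeAlgebra.ι F l else 0

/-- The polynomial computed: the sum, over all source-sink paths (of any length `k < size`),
of the ordered product of the edge labels. -/
noncomputable def NCABP.poly {F : Type u} [Field F] {n : ℕ} (P : NCABP F n) :
    FreeAlgebra F (Fin n) :=
  ∑ k ∈ Finset.range P.size, (P.label ^ k) P.source P.sink

/-- `H` is a hitting set for the polynomials computed by branching programs with at most `s`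
vertices. -/
def IsHittingSetABP {F : Type u} [Field F] (n s : ℕ) (H : List (MatTuple F n)) : Prop :=
  ∀ P : NCABP F n, P.size ≤ s → P.poly ≠ 0 →
    ∃ T ∈ H, FreeAlgebra.lift F T.mat P.poly ≠ 0

end Vale.Agent.P314
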