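import Vale.Agent.P314.Main
import Vale.Agent.P314.DefsABP

namespace Vale.Agent.P314

universe u

variable {F : Type u} [Field F] {n : ℕ}

theorem label_pow (P : NCABP F n) (k : ℕ) (i j : Fin P.size) (h : (j : ℕ) < i + k) :
    (P.label ^ k) i j = 0 := by
  induction k generalizing i with
  | zero =>
    rw [pow_zero, Matrix.one_apply_ne]
    rintro rfl
    omega
  | succ k ih =>
    rw [pow_succ', Matrix.mul_apply]
    refine Finset.sum_eq_zero fun t _ => ?_
    by_cases ht : i < t
    · rw [ih t (by have : (i : ℕ) < t := ht; omega), mul_zero]
    · simp [NCABP.label, ht]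

theorem hitSet_hitsABP (F : Type u) [Field F] (n s : ℕ) :
    IsHittingSetABP n s (hitSet F n s) := by
  intro P hP hne
  let y : Fin P.size → FreeAlgebra F (Fin n) := fun i =>
    ∑ k ∈ Finset.range P.size, (P.label ^ k) i P.sink
  have hy : ∀ i, y i = (1 : Matrix _ _ (FreeAlgebra F (Fin n))) i P.sink +
      ∑ j, P.label i j * y j := by
    intro i
    have h1 : ∑ j, P.label i j * y j =
        ∑ k ∈ Finset.range P.size, (P.label ^ (k + 1)) i P.sink := by
      simp only [y, Finset.mul_sum, pow_succ', Matrix.mul_apply]
      exact Finset.sum_comm
    have h2 := Finset.sum_range_succ' (fun k => (P.label ^ k) i P.sink) P.size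
    rw [Finset.sum_range_succ, label_pow P P.size i P.sink (by have := P.sink.2; omega),
      add_zero, pow_zero] at h2
    rw [h1, add_comm]
    exact h2
  let V := Submodule.span F (Set.range y)
  have hyV : ∀ i, y i ∈ V := fun i => Submodule.subset_span ⟨i, rfl⟩
  have hD : ∀ l i, Dq l (y i) ∈ V := by
    intro l
    have : ∀ d : ℕ, ∀ i : Fin P.size, P.size ≤ i + d → Dq l (y i) ∈ V := by
      intro d
      induction d with
      | zero => intro i hi; have := i.2; omega
      | succ d ih =>
        intro i hi
        rw [hy i, map_add, map_sum]
        refine V.add_mem ?_ (V.sum_mem fun j _ => ?_)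
        · rw [Matrix.one_apply]
          split_ifs
          · rw [Dq_one]; exact V.zero_mem
          · rw [map_zero]; exact V.zero_mem
        · by_cases hij : i < j
          · rw [Dq_mul]
            refine V.add_mem (V.smul_mem _ (ih j (by have : (i : ℕ) < j := hij; omega))) ?_
            have : Dq l (P.label i j) = P.L i j l • 1 := by
              simp [NCABP.label, hij, Dq_algebraMap, Dq_ι]
            rw [this, smul_mul_assoc, one_mul]
            exact V.smul_mem _ (hyV j)
          · simp [NCABP.label, hij]
    exact fun i => this P.size i (by omega)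
  haveI : FiniteDimensional F V := FiniteDimensional.span_of_finite F (Set.finite_range _)
  refine hitSet_hits_of_space s _ V (hyV P.source) ?_ ?_ hne
  · intro l g hg
    obtain ⟨c, rfl⟩ := (Submodule.mem_span_range_iff_exists_fun F).1 hg
    rw [map_sum]
    exact V.sum_mem fun i _ => by rw [map_smul]; exact V.smul_mem _ (hD l i)
  · have := finrank_range_le_card (R := F) y
    rw [Fintype.card_fin] at this
    exact le_trans this (by omega)

end Vale.Agent.P314
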