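import Mathlib.Algebra.FreeAlgebra
import Mathlib.Data.Matrix.Basic
import Mathlib.Algebra.Field.Defs
import Mathlib.Computability.TuringMachine.Computable

namespace Vale.Agent.P314

universe u

/-- Noncommutative formulas over `F` in the variables `x_i`, `i : Fin n`: rooted trees whose
leaves are variables or scalars and whose inner vertices are binary ordered `+` or `*` gates. -/
inductive NCFormula (F : Type u) (n : ℕ) : Type u
  | var (i : Fin n) : NCFormula F n
  | const (a : F) : NCFormula F n
  | add (φ ψ : NCFormula F n) : NCFormula F n
  | mul (φ ψ : NCFormula F n) : NCFormula F n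

/-- The size of a formula: the number of vertices, leaves included. -/
def NCFormula.size {F : Type u} {n : ℕ} : NCFormula F n → ℕ
  | .var _ => 1
  | .const _ => 1
  | .add φ ψ => φ.size + ψ.size + 1
  | .mul φ ψ => φ.size + ψ.size + 1

/-- The element of the free associative algebra computed by a formula. -/
noncomputable def NCFormula.poly {F : Type u} [Field F] {n : ℕ} :
    NCFormula F n → FreeAlgebra F (Fin n)
  | .var i => FreeAlgebra.ι F i
  | .const a => algebraMap F (FreeAlgebra F (Fin n)) a
  | .add φ ψ => φ.poly + ψ.poly
  | .mul φ ψ => φ.poly * ψ.poly

/-- An `n`-tuple of square matrices over `F` of a common dimension. -/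
structure MatTuple (F : Type u) (n : ℕ) : Type u where
  dim : ℕ
  mat : Fin n → Matrix (Fin dim) (Fin dim) F

/-- `H` is a hitting set for the polynomials computed by formulas of size at most `s`. -/
def IsHittingSet {F : Type u} [Field F] (n s : ℕ) (H : List (MatTuple F n)) : Prop :=
  ∀ φ : NCFormula F n, φ.size ≤ s → φ.poly ≠ 0 →
    ∃ T ∈ H, FreeAlgebra.lift F T.mat φ.poly ≠ 0

/-- The number `m` in unary, with an end marker. -/
def unary (m : ℕ) : List Bool := List.replicate m true ++ [false]

/-- The input `(n, s)`: both numbers in unary. -/
def encodeInput (p : ℕ × ℕ) : List Bool := unary p.1 ++ unary p.2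

/-- Self-delimiting form of a bit string. -/
def delimit (w : List Bool) : List Bool := w.flatMap (fun b => [true, b]) ++ [false]

/-- A tuple is written as its dimension followed by all entries of all matrices, row by row. -/
def encodeTuple {F : Type u} {n : ℕ} (enc : F → List Bool) (T : MatTuple F n) : List Bool :=
  unary T.dim ++ (List.finRange n).flatMap fun l => (List.finRange T.dim).flatMap fun i =>
    (List.finRange T.dim).flatMap fun j => delimit (enc (T.mat l i j))

/-- A list of tuples is written as its length followed by its members. -/
def encodeSet {F : Type u} {n : ℕ} (enc : F → List Bool) (H : List (MatTuple F n)) : List Bool :=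
  unary H.length ++ H.flatMap (encodeTuple enc)

end Vale.Agent.P314
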