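import Mathlib.LinearAlgebra.Matrix.ToLinearEquiv
import Mathlib.LinearAlgebra.Dual.Lemmas
import Mathlib.LinearAlgebra.FiniteDimensional.Lemmas
import Mathlib.Data.Set.Finite.List
import Mathlib.Data.Set.Card

/-! Linear independence of shifted functionals over a difference field. -/

namespace Vale.Agent.P314

variable {ι : Type*} [Fintype ι]

/-- Evolution of a function on words under the operators `δ k + ∑ a k l * shift l`. -/
def evol {Λ : Type*} [CommRing Λ] (δ : ℕ → Λ) (a : ℕ → ι → Λ) (y : List ι → Λ) :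
    ℕ → List ι → Λ
  | 0 => y
  | k + 1 => fun v => δ k * evol δ a y k v + ∑ l, a k l * evol δ a y k (l :: v)

section
variable {Λ Λ' : Type*} [CommRing Λ] [CommRing Λ']

theorem evol_map (φ : Λ →+* Λ') (δ : ℕ → Λ) (a : ℕ → ι → Λ) (y : List ι → Λ) (k : ℕ)
    (v : List ι) : φ (evol δ a y k v) =
      evol (fun i => φ (δ i)) (fun i l => φ (a i l)) (fun v => φ (y v)) k v := by
  induction k generalizing v with
  | zero => rfl
  | succ k ih => simp only [evol, map_add, map_mul, map_sum, ih]

theorem evol_shift (δ : ℕ → Λ) (a : ℕ → ι → Λ) (y : List ι → Λ) (k j : ℕ) :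
    evol δ a y (k + j) = evol (fun i => δ (k + i)) (fun i => a (k + i)) (evol δ a y k) j := by
  induction j with
  | zero => rfl
  | succ j ih =>
    rw [← add_assoc]
    simp only [evol, ih]

theorem evol_add (δ : ℕ → Λ) (a : ℕ → ι → Λ) (y y' : List ι → Λ) (k : ℕ) (v : List ι) :
    evol δ a (y + y') k v = evol δ a y k v + evol δ a y' k v := by
  induction k generalizing v with
  | zero => rfl
  | succ k ih =>
    simp only [evol, ih, mul_add, Finset.sum_add_distrib]
    ring

theorem evol_smul (δ : ℕ → Λ) (a : ℕ → ι → Λ) (c : Λ) (y : List ι → Λ) (k : ℕ) (v : List ι) :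
    evol δ a (c • y) k v = c * evol δ a y k v := by
  induction k generalizing v with
  | zero => rfl
  | succ k ih =>
    simp only [evol, ih, mul_add, Finset.mul_sum]
    congr 1
    · ring
    · exact Finset.sum_congr rfl fun _ _ => by ring

/-- The evolution is linear in the initial function. -/
def evolL (δ : ℕ → Λ) (a : ℕ → ι → Λ) (k : ℕ) (v : List ι) : (List ι → Λ) →ₗ[Λ] Λ where
  toFun y := evol δ a y k v
  map_add' y y' := evol_add δ a y y' k v
  map_smul' c y := evol_smul δ a c y k v

theorem evol_sum {κ : Type*} [Fintype κ] (δ : ℕ → Λ) (a : ℕ → ι → Λ) (c : κ → Λ)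
    (b : κ → List ι → Λ) (k : ℕ) (v : List ι) :
    evol δ a (∑ r, c r • b r) k v = ∑ r, c r * evol δ a (b r) k v := by
  have := map_sum (evolL δ a k v) (fun r => c r • b r) Finset.univ
  simp only [map_smul, smul_eq_mul] at this
  exact this

theorem evol_mem (δ : ℕ → Λ) (a : ℕ → ι → Λ) (U : Submodule Λ (List ι → Λ))
    (hU : ∀ l, ∀ y ∈ U, (fun v => y (l :: v)) ∈ U) {y : List ι → Λ} (hy : y ∈ U) (k : ℕ) :
    evol δ a y k ∈ U := by
  induction k with
  | zero => exact hy
  | succ k ih =>
    have : evol δ a y (k + 1) =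
        δ k • evol δ a y k + ∑ l, a k l • fun v => evol δ a y k (l :: v) := by
      funext v
      simp [evol, Finset.sum_apply]
    rw [this]
    exact U.add_mem (U.smul_mem _ ih) (U.sum_mem fun l _ => U.smul_mem _ (hU l _ ih))

end

theorem stable_eq_zero {L : Type*} [Field L] (σ : L ≃+* L) (δ : L) (hδ : δ ≠ 0) (a : ι → L)
    (H : ∀ (ρ : L) (κ : ι → L), (∀ l, σ (κ l) = κ l) → δ * (σ ρ - ρ) = ∑ l, a l * κ l →
      ∀ l, κ l = 0)
    (W : Submodule L (List ι → L)) (h1 : ∀ w ∈ W, w [] = 0)
    (h2 : ∀ w ∈ W, ∃ w' ∈ W, ∀ v, δ * σ (w' v) = δ * w v + ∑ l, a l * w (l :: v))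
    (e : ℕ) : ∀ w ∈ W, (∀ v : List ι, e ≤ v.length → w v = 0) → w = 0 := by
  induction e with
  | zero => exact fun w _ h => funext fun v => h v (Nat.zero_le _)
  | succ e ih =>
    have fin : ∀ w : List ι → L, {v : List ι | v.length = e ∧ w v ≠ 0}.Finite := fun w =>
      (List.finite_length_eq ι e).subset fun v hv => hv.1
    suffices ∀ c : ℕ, ∀ w ∈ W, (∀ v : List ι, e + 1 ≤ v.length → w v = 0) →
        {v : List ι | v.length = e ∧ w v ≠ 0}.ncard = c → w = 0 from
      fun w hw h => this _ w hw h rfl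
    intro c
    induction c using Nat.strong_induction_on with
    | _ c ihc =>
    intro w hw h hc
    by_cases hne : ∃ u : List ι, u.length = e ∧ w u ≠ 0
    swap
    · push Not at hne
      refine ih w hw fun v hv => ?_
      rcases hv.eq_or_lt with hv | hv
      · exact hne v hv.symm
      · exact h v hv
    exfalso
    obtain ⟨u, hu, hwu⟩ := hne
    set w1 := (w u)⁻¹ • w with hw1
    have hw1W : w1 ∈ W := W.smul_mem _ hw
    have hw1u : w1 u = 1 := by simp [hw1, hwu]
    have hw1z : ∀ v, w v = 0 → w1 v = 0 := fun v hv => by simp [hw1, hv]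
    obtain ⟨w', hw', hσ⟩ := h2 w1 hw1W
    have top : ∀ v : List ι, e ≤ v.length → σ (w' v) = w1 v := by
      intro v hv
      have := hσ v
      rw [Finset.sum_eq_zero (fun l _ => by
        rw [hw1z _ (h _ (by simpa using hv)), mul_zero]), add_zero] at this
      exact mul_left_cancel₀ hδ this
    have topz : ∀ v : List ι, e ≤ v.length → w v = 0 → w' v = 0 := by
      intro v hv hz
      have := top v hv
      rwa [hw1z v hz, map_eq_zero] at this
    have heq : w' - w1 = 0 := by
      refine ihc _ ?_ (w' - w1) (W.sub_mem hw' hw1W) ?_ rfl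
      · rw [← hc]
        refine Set.ncard_lt_ncard ⟨?_, ?_⟩ (fin w)
        · rintro v ⟨hv, hv'⟩
          refine ⟨hv, fun hz => hv' ?_⟩
          simp [topz v hv.ge hz, hw1z v hz]
        · intro hsub
          have := (hsub ⟨hu, hwu⟩).2
          apply this
          have h3 := top u hu.ge
          rw [hw1u, ← map_one σ] at h3
          simp [σ.injective h3, hw1u]
      · intro v hv
        simp [topz v (by omega) (h v hv), hw1z v (h v hv)]
    have heq' : w' = w1 := sub_eq_zero.1 heq
    rw [heq'] at hσ top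
    cases u with
    | nil =>
      rw [h1 w1 hw1W] at hw1u
      exact zero_ne_one hw1u
    | cons l0 v0 =>
      have := H (w1 v0) (fun l => w1 (l :: v0)) (fun l => top _ (by simpa using hu.ge))
        (by rw [mul_sub, hσ v0]; ring) l0
      rw [hw1u] at this
      exact one_ne_zero this

theorem indep_base_change {K L : Type*} [Field K] [Field L] [Algebra K L] {κ Ω : Type*} [Fintype κ]
    (b : κ → Ω → K) (hb : LinearIndependent K b) (c : κ → L)
    (h : ∀ v, ∑ r, c r * algebraMap K L (b r v) = 0) : c = 0 := by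
  funext r
  rw [Pi.zero_apply, ← Module.forall_dual_apply_eq_zero_iff K]
  intro φ
  refine Fintype.linearIndependent_iff.1 hb (fun r => φ (c r)) ?_ r
  funext v
  have := congrArg φ (h v)
  rw [map_sum, map_zero] at this
  rw [Finset.sum_apply, Pi.zero_apply, ← this]
  refine Finset.sum_congr rfl fun r _ => ?_
  rw [mul_comm (c r), ← Algebra.smul_def, map_smul, Pi.smul_apply, smul_eq_mul, smul_eq_mul,
    mul_comm]

theorem det_ne_zero {K L : Type*} [Field K] [Field L] [Algebra K L] (σ : L ≃ₐ[K] L)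
    (δ : ℕ → L) (a : ℕ → ι → L) (hδ0 : δ 0 ≠ 0) (hδ : ∀ i, δ (i + 1) = σ (δ i))
    (ha : ∀ i l, a (i + 1) l = σ (a i l))
    (H : ∀ (ρ : L) (κ : ι → L), (∀ l, σ (κ l) = κ l) → δ 0 * (σ ρ - ρ) = ∑ l, a 0 l * κ l →
      ∀ l, κ l = 0)
    {N : ℕ} (b : Fin N → List ι → K) (hb : LinearIndependent K b)
    (hsh : ∀ l r, (fun v => b r (l :: v)) ∈ Submodule.span K (Set.range b)) (m : ℕ)
    (hm : ∀ r (v : List ι), m ≤ v.length → b r v = 0) :
    (Matrix.of fun (j r : Fin N) => evol δ a (fun v => algebraMap K L (b r v)) j []).det ≠ 0 := by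
  intro hdet
  obtain ⟨c, hc0, hc⟩ := Matrix.exists_mulVec_eq_zero_iff.2 hdet
  set bL : Fin N → List ι → L := fun r v => algebraMap K L (b r v) with hbL
  set U : Submodule L (List ι → L) := Submodule.span L (Set.range bL) with hU
  have memU : ∀ w, w ∈ U ↔ ∃ c : Fin N → L, ∑ r, c r • bL r = w := fun w =>
    Submodule.mem_span_range_iff_exists_fun L
  have hUfin : FiniteDimensional L U := FiniteDimensional.span_of_finite L (Set.finite_range _)
  have hUrank : Module.finrank L U ≤ N := by
    have := finrank_range_le_card (R := L) bL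
    rw [Fintype.card_fin] at this
    exact this
  have hUsh : ∀ l, ∀ y ∈ U, (fun v => y (l :: v)) ∈ U := by
    intro l y hy
    obtain ⟨c, rfl⟩ := (memU y).1 hy
    have : (fun v => (∑ r, c r • bL r) (l :: v)) = ∑ r, c r • fun v => bL r (l :: v) := by
      funext v
      simp [Finset.sum_apply]
    rw [this]
    refine U.sum_mem fun r _ => U.smul_mem _ ?_
    obtain ⟨d, hd⟩ := (Submodule.mem_span_range_iff_exists_fun K).1 (hsh l r)
    refine (memU _).2 ⟨fun t => algebraMap K L (d t), ?_⟩
    funext v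
    have := congrFun hd v
    simp only [Finset.sum_apply, Pi.smul_apply, smul_eq_mul] at this ⊢
    simp only [hbL, ← this, map_sum, map_mul]
  have hUσ : ∀ y ∈ U, (fun v => σ.symm (y v)) ∈ U := by
    intro y hy
    obtain ⟨c, rfl⟩ := (memU y).1 hy
    refine (memU _).2 ⟨fun r => σ.symm (c r), ?_⟩
    funext v
    simp [Finset.sum_apply, hbL]
  have hUm : ∀ y ∈ U, ∀ v : List ι, m ≤ v.length → y v = 0 := by
    intro y hy v hv
    obtain ⟨c, rfl⟩ := (memU y).1 hy
    simp [Finset.sum_apply, hbL, hm _ v hv]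
  let W : ℕ → Submodule L (List ι → L) := fun j =>
    U ⊓ ⨅ i : {i // i < j}, LinearMap.ker (evolL δ a i [])
  have memW : ∀ j w, w ∈ W j ↔ w ∈ U ∧ ∀ i < j, evol δ a w i [] = 0 := by
    intro j w
    simp [W, Submodule.mem_iInf, evolL]
  have Wle : ∀ j, W j ≤ U := fun j => inf_le_left
  have Wanti : ∀ i j, i ≤ j → W j ≤ W i := by
    intro i j hij w hw
    rw [memW] at hw ⊢
    exact ⟨hw.1, fun t ht => hw.2 t (by omega)⟩
  have Wfin : ∀ j, FiniteDimensional L (W j) := fun j => Submodule.finiteDimensional_of_le (Wle j)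
  have hw0 : ∑ r, c r • bL r ∈ W N := by
    rw [memW]
    refine ⟨(memU _).2 ⟨c, rfl⟩, fun i hi => ?_⟩
    rw [evol_sum]
    have := congrFun hc ⟨i, hi⟩
    simp only [Matrix.mulVec, dotProduct, Matrix.of_apply, Pi.zero_apply] at this
    rw [← this]
    exact Finset.sum_congr rfl fun _ _ => mul_comm _ _
  have hw0ne : ∑ r, c r • bL r ≠ 0 := by
    intro h
    refine hc0 (indep_base_change b hb c fun v => ?_)
    have := congrFun h v
    simpa [Finset.sum_apply, hbL] using this
  have hex : ∃ j < N, W (j + 1) = W j := by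
    by_contra hcon
    push Not at hcon
    have : ∀ j ≤ N, Module.finrank L (W j) + j ≤ N := by
      intro j
      induction j with
      | zero => intro _; exact (Submodule.finrank_mono (Wle 0)).trans hUrank
      | succ j ih =>
        intro hj
        have := Submodule.finrank_lt_finrank_of_lt
          (lt_of_le_of_ne (Wanti j (j + 1) (by omega)) (hcon j (by omega)))
        have := ih (by omega)
        omega
    have h0 : Module.finrank L (W N) = 0 := by
      have := this N le_rfl
      omega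
    rw [Submodule.finrank_eq_zero] at h0
    rw [h0] at hw0
    exact hw0ne hw0
  obtain ⟨j, hj, hWj⟩ := hex
  refine hw0ne (stable_eq_zero σ.toRingEquiv (δ 0) hδ0 (a 0) H (W (j + 1)) ?_ ?_ m _
    (Wanti _ _ hj hw0) (hUm _ (Wle _ hw0)))
  · intro w hw
    exact ((memW _ _).1 hw).2 0 (by omega)
  · intro w hw
    have hw' := (memW _ _).1 hw
    refine ⟨fun v => σ.symm (((δ 0)⁻¹ • evol δ a w 1) v), ?_, ?_⟩
    · rw [hWj, memW]
      refine ⟨hUσ _ (U.smul_mem _ (evol_mem δ a U hUsh hw'.1 1)), fun i hi => ?_⟩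
      apply σ.injective
      have := evol_map (σ : L →+* L) δ a (fun v => σ.symm (((δ 0)⁻¹ • evol δ a w 1) v)) i []
      simp only [RingHom.coe_coe, AlgEquiv.apply_symm_apply, ← hδ, ← ha] at this
      rw [this, map_zero]
      have h2 := hw'.2 (1 + i) (by omega)
      rw [evol_shift] at h2
      simp only [add_comm 1] at h2
      exact (evol_smul _ _ _ _ _ _).trans (by rw [h2, mul_zero])
    · intro v
      show δ 0 * σ (σ.symm _) = _
      rw [AlgEquiv.apply_symm_apply, Pi.smul_apply, smul_eq_mul, ← mul_assoc, mul_inv_cancel₀ hδ0,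
        one_mul]
      rfl

end Vale.Agent.P314
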