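import Vale.Agent.P314.Trunc

namespace Vale.Agent.P314

open Vale.Agent.Common.LoopTM

theorem finRange_flatMap {γ : Type*} (m : ℕ) (g : ℕ → List γ) :
    (List.finRange m).flatMap (fun i : Fin m => g i.1) = (List.range m).flatMap g := by
  rw [← List.map_coe_finRange_eq_range, List.flatMap_map]

theorem range_mul_flatMap {γ : Type*} (R E : ℕ) (g : ℕ → ℕ → List γ) :
    (List.range (R * E)).flatMap (fun i => g (i / E) (i % E)) =
      (List.range R).flatMap fun j => (List.range E).flatMap (g j) := by
  induction R with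
  | zero => simp
  | succ R ih =>
    rw [Nat.succ_mul, List.range_add, List.flatMap_append, ih, List.range_succ,
      List.flatMap_append, List.flatMap_map, List.flatMap_singleton]
    congr 1
    refine List.flatMap_congr fun x hx => ?_
    obtain ⟨h1, h2⟩ := div_mod_aux (R := R) (List.mem_range.1 hx)
    rw [h1, h2]

universe u

/-- The explicit hitting set: a single tuple of zero-one matrices. -/
def hitSet (F : Type u) [Field F] (n s : ℕ) : List (MatTuple F n) :=
  [⟨(2 * (n + s + 1)) ^ 3 * ((2 * (n + s + 1)) ^ 3) ^ 3,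
    Tmat F (2 * (n + s + 1)) ((2 * (n + s + 1)) ^ 3) (((2 * (n + s + 1)) ^ 3) ^ 3)⟩]

theorem encodeTuple_Tmat {F : Type u} [Field F] (enc : F → List Bool) (n M R E : ℕ) :
    encodeTuple enc (⟨R * E, Tmat F M R E⟩ : MatTuple F n) =
      un (R * E) ++ false :: table (delimit (enc 0)) (delimit (enc 1)) n M R E := by
  simp only [encodeTuple, unary, un, List.append_assoc, List.singleton_append, table, Tmat,
    Matrix.of_apply, apply_ite enc, apply_ite delimit]
  congr 2
  rw [← finRange_flatMap n]
  refine List.flatMap_congr fun l _ => ?_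
  rw [← range_mul_flatMap R E (fun k a => (List.range R).flatMap fun j =>
    (List.range E).flatMap fun b =>
      if entryB M l k a j b then delimit (enc 1) else delimit (enc 0)), ← finRange_flatMap]
  refine List.flatMap_congr fun i _ => ?_
  rw [← range_mul_flatMap R E (fun j b =>
      if entryB M l (i / E) (i % E) j b then delimit (enc 1) else delimit (enc 0)),
    ← finRange_flatMap]

theorem hitSet_hits_of_space {F : Type u} [Field F] {n : ℕ} (s : ℕ) (f : FreeAlgebra F (Fin n))
    (V : Submodule F (FreeAlgebra F (Fin n))) [FiniteDimensional F V] (hfV : f ∈ V)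
    (hV : ∀ l, ∀ g ∈ V, Dq l g ∈ V) (hN : Module.finrank F V ≤ 2 * s) (hne : f ≠ 0) :
    ∃ T ∈ hitSet F n s, FreeAlgebra.lift F T.mat f ≠ 0 := by
  refine ⟨_, List.mem_singleton_self _, fun h => hne ?_⟩
  refine hitting f V hfV hV hN (by omega) (by omega) ?_ ?_ h
  · nlinarith [Nat.zero_le (n * s * s), Nat.zero_le (n * s), Nat.zero_le (n * n),
      Nat.zero_le (s * s), Nat.zero_le (n * n * s), Nat.zero_le (n * n * n),
      Nat.zero_le (s * s * s)]
  · generalize hM : 2 * (n + s + 1) = M
    rw [show M ^ 2 * (M ^ 3) ^ 2 = M ^ 8 by ring, show (M ^ 3) ^ 3 = M ^ 9 by ring]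
    exact Nat.pow_lt_pow_right (by omega) (by norm_num)

theorem hitSet_hits (F : Type u) [Field F] (n s : ℕ) : IsHittingSet n s (hitSet F n s) := by
  intro φ hφ hne
  obtain ⟨V, hV, h1, h2, h3⟩ := exists_space φ
  exact hitSet_hits_of_space s _ V h2 h3 (by omega) hne

theorem hitSet_polyTime (F : Type u) [Field F] (enc : F → List Bool) :
    ∃ tm : Turing.TM2ComputableInPolyTime encodeInput (id : List Bool → List Bool)
      (fun p : ℕ × ℕ => encodeSet enc (hitSet F p.1 p.2)), ∀ k, Finite (tm.tm.Γ k) := by
  refine polyTime Reg.inp Reg.out (mainProg (delimit (enc 0)) (delimit (enc 1))) _ _ _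
    ((2 * Polynomial.X) ^ 9) ?_
  rintro ⟨n, s⟩
  have h := run_main (delimit (enc 0)) (delimit (enc 1)) (n := n) (s := s)
    (β := ((2 * Polynomial.X) ^ 9 : Polynomial ℕ).eval (encodeInput (n, s)).length) rfl (by
      simp only [Polynomial.eval_pow, Polynomial.eval_mul, Polynomial.eval_X,
        Polynomial.eval_ofNat, encodeInput, unary, List.length_append, List.length_replicate,
        List.length_singleton]
      exact Nat.pow_le_pow_left (by omega) _)
  refine (h.of_eq' ?_).of_eq ?_
  · simp [encodeInput, unary, un]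
  · simp only [id, encodeSet, hitSet, List.flatMap_singleton, encodeTuple_Tmat]
    rfl

end Vale.Agent.P314
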