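import Mathlib.RingTheory.Localization.FractionRing
import Mathlib.Algebra.Polynomial.Roots
import Mathlib.Algebra.Polynomial.AlgebraMap
import Mathlib.Tactic.FieldSimp
import Mathlib.Tactic.LinearCombination

/-! Simple poles in distinct orbits of `z ↦ Q z` are not differences. -/

namespace Vale.Agent.P314

open Polynomial

variable {K L : Type*} [Field K] [Field L] [Algebra K[X] L] [IsFractionRing K[X] L]

/-- The rational function `ρ` is regular at the point `p`. -/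
def Reg' (p : K) (ρ : L) : Prop :=
  ∃ a b : K[X], b.eval p ≠ 0 ∧ ρ * algebraMap K[X] L b = algebraMap K[X] L a

omit [IsFractionRing K[X] L] in
theorem Reg'.add {p : K} {ρ τ : L} (h : Reg' p ρ) (h' : Reg' p τ) : Reg' p (ρ + τ) := by
  obtain ⟨a, b, hb, e⟩ := h
  obtain ⟨a', b', hb', e'⟩ := h'
  refine ⟨a * b' + a' * b, b * b', by simp [hb, hb'], ?_⟩
  simp only [map_add, map_mul]
  linear_combination (algebraMap K[X] L b') * e + (algebraMap K[X] L b) * e'

omit [IsFractionRing K[X] L] in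
theorem Reg'.mul {p : K} {ρ τ : L} (h : Reg' p ρ) (h' : Reg' p τ) : Reg' p (ρ * τ) := by
  obtain ⟨a, b, hb, e⟩ := h
  obtain ⟨a', b', hb', e'⟩ := h'
  refine ⟨a * a', b * b', by simp [hb, hb'], ?_⟩
  simp only [map_mul]
  rw [← e, ← e']
  ring

omit [IsFractionRing K[X] L] in
theorem Reg'.neg {p : K} {ρ : L} (h : Reg' p ρ) : Reg' p (-ρ) := by
  obtain ⟨a, b, hb, e⟩ := h
  exact ⟨-a, b, hb, by simp [e]⟩

omit [IsFractionRing K[X] L] in
theorem Reg'.sub {p : K} {ρ τ : L} (h : Reg' p ρ) (h' : Reg' p τ) : Reg' p (ρ - τ) := by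
  rw [sub_eq_add_neg]
  exact h.add h'.neg

omit [IsFractionRing K[X] L] in
theorem Reg'.zero (p : K) : Reg' p (0 : L) := ⟨0, 1, by simp, by simp⟩

omit [IsFractionRing K[X] L] in
theorem Reg'.sum {ι : Type*} {p : K} (s : Finset ι) (f : ι → L) (h : ∀ i ∈ s, Reg' p (f i)) :
    Reg' p (∑ i ∈ s, f i) :=
  Finset.sum_induction f (Reg' p) (fun _ _ => Reg'.add) (Reg'.zero p) h

theorem Reg'.inv {p : K} {b : K[X]} (hb : b.eval p ≠ 0) : Reg' p (algebraMap K[X] L b)⁻¹ := by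
  refine ⟨1, b, hb, ?_⟩
  rw [map_one, inv_mul_cancel₀]
  rw [Ne, IsFractionRing.to_map_eq_zero_iff]
  rintro rfl
  simp at hb

theorem not_reg_inv {p : K} {b : K[X]} (hb0 : b ≠ 0) (hb : b.eval p = 0) :
    ¬ Reg' p (algebraMap K[X] L b)⁻¹ := by
  rintro ⟨a, c, hc, e⟩
  have h0 : algebraMap K[X] L b ≠ 0 := by
    rwa [Ne, IsFractionRing.to_map_eq_zero_iff]
  rw [inv_mul_eq_iff_eq_mul₀ h0, ← map_mul] at e
  rw [IsFractionRing.injective K[X] L e] at hc
  simp [hb] at hc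

theorem finite_not_reg (ρ : L) : {p : K | ¬ Reg' p ρ}.Finite := by
  obtain ⟨a, b, hb, rfl⟩ := IsFractionRing.div_surjective K[X] ρ
  have hb0 : b ≠ 0 := nonZeroDivisors.ne_zero hb
  refine (finite_setOfPred_isRoot hb0).subset fun p hp => ?_
  by_contra h
  refine hp ⟨a, b, h, ?_⟩
  rw [div_mul_cancel₀]
  rwa [Ne, IsFractionRing.to_map_eq_zero_iff]

omit [IsFractionRing K[X] L] in
theorem reg_shift {Q : K} (hQ : Q ≠ 0) (σ : L ≃+* L)
    (hσ : ∀ a : K[X], σ (algebraMap K[X] L a) = algebraMap K[X] L (a.comp (C Q * X)))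
    (p : K) (ρ : L) : Reg' p (σ ρ) ↔ Reg' (Q * p) ρ := by
  constructor
  · rintro ⟨a, b, hb, e⟩
    have key : ∀ a : K[X], (a.comp (C Q⁻¹ * X)).comp (C Q * X) = a := by
      intro a
      rw [comp_assoc]
      simp [← mul_assoc, ← C_mul, hQ]
    refine ⟨a.comp (C Q⁻¹ * X), b.comp (C Q⁻¹ * X), ?_, σ.injective ?_⟩
    · simpa [eval_comp, ← mul_assoc, hQ] using hb
    · rw [map_mul, hσ, hσ, key, key, e]
  · rintro ⟨a, b, hb, e⟩
    refine ⟨a.comp (C Q * X), b.comp (C Q * X), by simpa [eval_comp] using hb, ?_⟩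
    rw [← hσ, ← hσ, ← map_mul, e]

theorem reg_of_orbit {Q : K} (hQ : Q ≠ 0) (hQ' : ∀ t : ℤ, Q ^ t = 1 → t = 0) (σ : L ≃+* L)
    (hσ : ∀ a : K[X], σ (algebraMap K[X] L a) = algebraMap K[X] L (a.comp (C Q * X)))
    {p : K} (hp : p ≠ 0) (ρ : L) (h : ∀ t : ℤ, t ≠ 0 → Reg' (Q ^ t * p) (σ ρ - ρ)) :
    Reg' p ρ ∧ Reg' p (σ ρ) := by
  have inj : Function.Injective fun t : ℤ => Q ^ t * p := by
    intro t t' e
    have e' : Q ^ t = Q ^ t' := mul_right_cancel₀ hp e
    have : Q ^ (t - t') = 1 := by rw [zpow_sub₀ hQ, e', div_self (zpow_ne_zero _ hQ)]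
    have := hQ' _ this
    omega
  have step : ∀ t : ℤ, t ≠ 0 → (Reg' (Q ^ t * p) ρ ↔ Reg' (Q ^ (t + 1) * p) ρ) := by
    intro t ht
    rw [zpow_add_one₀ hQ, mul_comm (Q ^ t) Q, mul_assoc, ← reg_shift hQ σ hσ]
    constructor
    · intro h1
      simpa using (h t ht).add h1
    · intro h1
      simpa using h1.sub (h t ht)
  constructor
  · by_contra hcon
    have bad : ∀ i : ℕ, ¬ Reg' (Q ^ (-(i : ℤ)) * p) ρ := by
      intro i
      induction i with
      | zero => simpa using hcon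
      | succ i ih =>
        rw [step _ (by omega)]
        rwa [show -((i + 1 : ℕ) : ℤ) + 1 = -(i : ℤ) by push_cast; ring]
    refine Set.infinite_of_injective_forall_mem (f := fun i : ℕ => Q ^ (-(i : ℤ)) * p) ?_ bad
      (finite_not_reg ρ)
    intro i j e
    have := inj e
    omega
  · by_contra hcon
    rw [reg_shift hQ σ hσ] at hcon
    have bad : ∀ i : ℕ, ¬ Reg' (Q ^ ((i : ℤ) + 1) * p) ρ := by
      intro i
      induction i with
      | zero => simpa using hcon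
      | succ i ih =>
        push_cast
        rwa [← step _ (by omega)]
    refine Set.infinite_of_injective_forall_mem (f := fun i : ℕ => Q ^ ((i : ℤ) + 1) * p) ?_ bad
      (finite_not_reg ρ)
    intro i j e
    have := inj e
    omega

/-- The linear factor `1 - c z`. -/
noncomputable def lin (c : K) : K[X] := 1 - C c * X

theorem lin_ne_zero (c : K) : lin c ≠ 0 := by
  intro h
  have := congrArg (eval 0) h
  simp [lin] at this

theorem no_sum {ι : Type*} [Fintype ι] [DecidableEq ι] {Q : K} (hQ : Q ≠ 0)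
    (hQ' : ∀ t : ℤ, Q ^ t = 1 → t = 0) (σ : L ≃+* L)
    (hσ : ∀ a : K[X], σ (algebraMap K[X] L a) = algebraMap K[X] L (a.comp (C Q * X)))
    (c : ι → K) (hc0 : ∀ l, c l ≠ 0)
    (hc : ∀ l l' (t : ℤ), c l * Q ^ t = c l' → t = 0 ∧ l = l')
    (ρ : L) (κ : ι → L) (hκ : ∀ l, σ (κ l) = κ l)
    (h : algebraMap K[X] L (∏ l, lin (c l)) * (σ ρ - ρ) =
      ∑ l, algebraMap K[X] L (∏ l' ∈ Finset.univ.erase l, lin (c l')) * κ l) (l : ι) :
    κ l = 0 := by
  have hl0 : ∀ l, algebraMap K[X] L (lin (c l)) ≠ 0 := fun l => by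
    rw [Ne, IsFractionRing.to_map_eq_zero_iff]
    exact lin_ne_zero _
  have hd0 : algebraMap K[X] L (∏ l, lin (c l)) ≠ 0 := by
    rw [map_prod]
    exact Finset.prod_ne_zero_iff.2 fun l _ => hl0 l
  have h' : σ ρ - ρ = ∑ l, κ l * (algebraMap K[X] L (lin (c l)))⁻¹ := by
    apply mul_left_cancel₀ hd0
    rw [h, Finset.mul_sum]
    refine Finset.sum_congr rfl fun l _ => ?_
    rw [← Finset.mul_prod_erase Finset.univ _ (Finset.mem_univ l), map_mul]
    have := hl0 l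
    field_simp
  have fixed : ∀ x : L, σ x = x → ∀ p : K, p ≠ 0 → Reg' p x := by
    intro x hx p hp
    exact (reg_of_orbit hQ hQ' σ hσ hp x fun t _ => by rw [hx, sub_self]; exact Reg'.zero _).1
  by_contra hne
  have hβ : (c l)⁻¹ ≠ 0 := inv_ne_zero (hc0 l)
  have ev : ∀ l' (t : ℤ), ¬ (t = 0 ∧ l' = l) → (lin (c l')).eval (Q ^ t * (c l)⁻¹) ≠ 0 := by
    intro l' t hh e
    apply hh
    apply hc
    simp only [lin, eval_sub, eval_one, eval_mul, eval_C, eval_X] at e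
    have := hc0 l
    field_simp at e
    linear_combination -e
  have r1 := reg_of_orbit hQ hQ' σ hσ hβ ρ (by
    intro t ht
    rw [h']
    exact Reg'.sum _ _ fun l' _ =>
      (fixed _ (hκ l') _ (mul_ne_zero (zpow_ne_zero _ hQ) hβ)).mul
        (Reg'.inv (ev l' t fun hh => ht hh.1)))
  have r2 := r1.2.sub r1.1
  rw [h', ← Finset.add_sum_erase Finset.univ _ (Finset.mem_univ l)] at r2
  have r3 := r2.sub (Reg'.sum (Finset.univ.erase l)
    (fun l' => κ l' * (algebraMap K[X] L (lin (c l')))⁻¹) fun l' hl' =>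
      (fixed _ (hκ l') _ hβ).mul (Reg'.inv (by
        simpa using ev l' 0 fun hh => (Finset.mem_erase.1 hl').1 hh.2)))
  rw [add_sub_cancel_right] at r3
  have r4 := (fixed (κ l)⁻¹ (by rw [map_inv₀, hκ]) _ hβ).mul r3
  rw [← mul_assoc, inv_mul_cancel₀ hne, one_mul] at r4
  exact not_reg_inv (lin_ne_zero _) (by simp [lin, hc0 l]) r4

end Vale.Agent.P314
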