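import Vale.Agent.Common.LoopTM2
import Mathlib.Data.Fintype.Basic

namespace Vale.Agent.P314

open Function Vale.Agent.Common.LoopTM

inductive Reg : Type
  | inp | out | n | M | B | E | l | k | a | j | b | x | y | z | p | c | t | t'
  deriving DecidableEq

instance : Fintype Reg :=
  ⟨{.inp, .out, .n, .M, .B, .E, .l, .k, .a, .j, .b, .x, .y, .z, .p, .c, .t, .t'},
    fun r => by cases r <;> simp⟩

/-- The modular down-counter. -/
def cm (p : ℕ) : ℕ → ℕ
  | 0 => 0
  | i + 1 => if cm p i = 0 then p - 1 else cm p i - 1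

theorem cm_spec {p : ℕ} (hp : 0 < p) (i : ℕ) : cm p i < p ∧ p ∣ cm p i + i := by
  induction i with
  | zero => simp [cm, hp]
  | succ i ih =>
    obtain ⟨h1, h2⟩ := ih
    by_cases h : cm p i = 0
    · simp only [cm, h, if_true]
      rw [h, zero_add] at h2
      refine ⟨by omega, ?_⟩
      rw [show p - 1 + (i + 1) = p + i by omega]
      exact Dvd.dvd.add dvd_rfl h2
    · simp only [cm, h, if_false]
      refine ⟨by omega, ?_⟩
      rwa [show cm p i - 1 + (i + 1) = cm p i + i by omega]

theorem cm_eq_zero {p : ℕ} (hp : 0 < p) (i : ℕ) : cm p i = 0 ↔ p ∣ i := by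
  obtain ⟨h1, h2⟩ := cm_spec hp i
  constructor
  · intro h
    rwa [h, zero_add] at h2
  · intro h
    exact Nat.eq_zero_of_dvd_of_lt ((Nat.dvd_add_left h).1 h2) h1

def modLoop : Prog Reg :=
  down .z (.cond .c isT (.pop .c) (.seq (addTo .p .c .t) (.pop .c)))

theorem run_modLoop {β : ℕ} {s : St Reg} {p z : ℕ} (hp : p ≤ β) (hz : z ≤ β)
    (h1 : s .p = un p) (h2 : s .z = un z) (h3 : s .c = []) (h4 : s .t = []) :
    Run β modLoop s (update (update s .c (un (cm p z))) .z []) := by
  have := Run.down (β := β) (r := Reg.z)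
    (P := .cond .c isT (.pop .c) (.seq (addTo .p .c .t) (.pop .c)))
    (fun i => update s .c (un (cm p (z - i)))) z hz (by
      intro i hi
      rw [show z - i = z - (i + 1) + 1 by omega]
      by_cases h : cm p (z - (i + 1)) = 0
      · refine Or.inr ⟨by simp [h, isT], ?_⟩
        refine Run.seq (Run.addTo (by simp) (by simp) (by simp) hp (by simp [h1]) (by simp [h4]))
          ((Run.pop _ _).of_eq ?_)
        funext r
        cases r <;> simp [cm, h, un_tail]
      · refine Or.inl ⟨by simp [h, isT_un], (Run.pop _ _).of_eq ?_⟩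
        funext r
        cases r <;> simp [cm, h, un_tail])
  refine this.of_eq' ?_
  funext r
  cases r <;> simp [cm, h2, h3]

/-- The entry of the matrices, as a Boolean. -/
def entryB (M l k a j b : ℕ) : Bool := decide (j < k ∧ b ≤ a ∧ (M * j + l + 1) ∣ (a - b))

def test (w0 w1 : List Bool) : Prog Reg :=
  .cond .x isT (.cond .y isT (.push .out w0) (.cond .c isT (.push .out w0) (.push .out w1)))
    (.push .out w0)

theorem emit_test {β : ℕ} (w0 w1 : List Bool) {s : St Reg} {x y c : ℕ}
    (h1 : s .x = un x) (h2 : s .y = un y) (h3 : s .c = un c) :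
    Emit β .out (test w0 w1) s (if x ≠ 0 ∧ y = 0 ∧ c = 0 then w1 else w0) := by
  by_cases hx : x = 0
  · exact Or.inr ⟨by simp [h1, hx, isT], (Run.push _ _ _).of_eq (by simp [hx])⟩
  refine Or.inl ⟨by simp [h1, hx, isT_un], ?_⟩
  by_cases hy : y = 0
  swap
  · exact Or.inl ⟨by simp [h2, hy, isT_un], (Run.push _ _ _).of_eq (by simp [hy])⟩
  refine Or.inr ⟨by simp [h2, hy, isT], ?_⟩
  by_cases hc : c = 0
  · exact Or.inr ⟨by simp [h3, hc, isT], (Run.push _ _ _).of_eq (by simp [hx, hy, hc])⟩
  · exact Or.inl ⟨by simp [h3, hc, isT_un], (Run.push _ _ _).of_eq (by simp [hc])⟩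

def prep : Prog Reg :=
  .seq (addTo .k .x .t) <| .seq (subFrom .j .x .t) <|
  .seq (addTo .b .y .t) <| .seq (subFrom .a .y .t) <|
  .seq (addTo .a .z .t) <| .seq (subFrom .b .z .t) <|
  .seq (addTo .l .p .t) <| .seq (mulTo .M .j .p .t .t') (.push .p [true])

theorem run_prep {β : ℕ} {s : St Reg} {M l k a j b : ℕ} (hM : M ≤ β) (hl : l ≤ β) (hk : k ≤ β)
    (ha : a ≤ β) (hj : j ≤ β) (hb : b ≤ β)
    (e1 : s .M = un M) (e2 : s .l = un l) (e3 : s .k = un k) (e4 : s .a = un a)
    (e5 : s .j = un j) (e6 : s .b = un b) (z1 : s .x = []) (z2 : s .y = []) (z3 : s .z = [])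
    (z4 : s .p = []) (z6 : s .t = []) (z7 : s .t' = []) :
    Run β prep s (update (update (update (update s .x (un (k - j))) .y (un (b - a)))
      .z (un (a - b))) .p (un (M * j + l + 1))) := by
  refine Run.seq (Run.addTo (by simp) (by simp) (by simp) hk e3 z6) ?_
  refine Run.seq (Run.subFrom (y := k) (by simp) (by simp) (by simp) hj (by simp [*]) (by simp [*])
    (by simp [*])) ?_
  refine Run.seq (Run.addTo (by simp) (by simp) (by simp) hb (by simp [*]) (by simp [*])) ?_
  refine Run.seq (Run.subFrom (y := b) (by simp) (by simp) (by simp) ha (by simp [*]) (by simp [*])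
    (by simp [*])) ?_
  refine Run.seq (Run.addTo (by simp) (by simp) (by simp) ha (by simp [*]) (by simp [*])) ?_
  refine Run.seq (Run.subFrom (y := a) (by simp) (by simp) (by simp) hb (by simp [*]) (by simp [*])
    (by simp [*])) ?_
  refine Run.seq (Run.addTo (by simp) (by simp) (by simp) hl (by simp [*]) (by simp [*])) ?_
  refine Run.seq (Run.mulTo (by simp) (by simp) (by simp) (by simp) (by simp) (by simp) (by simp)
    (by simp) (by simp) (by simp) hM hj (by simp [*]) (by simp [*]) (by simp [*]) (by simp [*])) ?_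
  refine (Run.push _ _ _).of_eq ?_
  funext r
  cases r <;> simp [*, un_succ, un_add]

def entry (w0 w1 : List Bool) : Prog Reg :=
  .seq prep <| .seq modLoop <| .seq (test w0 w1) <|
  .seq (clear .x) <| .seq (clear .y) <| .seq (clear .p) (clear .c)

theorem emit_entry {β : ℕ} (w0 w1 : List Bool) {s : St Reg} {M l k a j b : ℕ} (hM : M ≤ β)
    (hl : l ≤ β) (hk : k ≤ β) (ha : a ≤ β) (hj : j ≤ β) (hb : b ≤ β) (hp : M * j + l + 1 ≤ β)
    (e1 : s .M = un M) (e2 : s .l = un l) (e3 : s .k = un k) (e4 : s .a = un a)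
    (e5 : s .j = un j) (e6 : s .b = un b) (z1 : s .x = []) (z2 : s .y = []) (z3 : s .z = [])
    (z4 : s .p = []) (z5 : s .c = []) (z6 : s .t = []) (z7 : s .t' = []) :
    Emit β .out (entry w0 w1) s (if entryB M l k a j b then w1 else w0) := by
  refine Run.seq (run_prep hM hl hk ha hj hb e1 e2 e3 e4 e5 e6 z1 z2 z3 z4 z6 z7) ?_
  refine Run.seq (run_modLoop (z := a - b) hp (by omega) (by simp) (by simp) (by simp [*])
    (by simp [*])) ?_
  refine Run.seq (emit_test w0 w1 (x := k - j) (y := b - a) (c := cm (M * j + l + 1) (a - b))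
    (by simp) (by simp) (by simp)) ?_
  refine Run.seq (Run.clear (x := k - j) (by omega) (by simp)) ?_
  refine Run.seq (Run.clear (x := b - a) (by omega) (by simp)) ?_
  refine Run.seq (Run.clear hp (by simp)) ?_
  refine (Run.clear (x := cm (M * j + l + 1) (a - b))
    ((cm_spec (by omega) _).1.le.trans hp) (by simp)).of_eq ?_
  have hc : (k - j ≠ 0 ∧ b - a = 0 ∧ cm (M * j + l + 1) (a - b) = 0) ↔
      entryB M l k a j b = true := by
    rw [cm_eq_zero (by omega), entryB, decide_eq_true_iff, Nat.sub_ne_zero_iff_lt,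
      Nat.sub_eq_zero_iff_le]
  simp only [hc]
  funext r
  cases r <;> simp [*]

/-- All entries of all matrices. -/
def table (w0 w1 : List Bool) (n M B E : ℕ) : List Bool :=
  (List.range n).flatMap fun l => (List.range B).flatMap fun k => (List.range E).flatMap fun a =>
    (List.range B).flatMap fun j => (List.range E).flatMap fun b =>
      if entryB M l k a j b then w1 else w0

def loops (w0 w1 : List Bool) : Prog Reg :=
  forD .l .n .t <| forD .k .B .t <| forD .a .E .t <| forD .j .B .t <| forD .b .E .t (entry w0 w1)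

theorem emit_loops {β : ℕ} (w0 w1 : List Bool) {s : St Reg} {n M B E : ℕ} (hn : n ≤ M)
    (hM : M ≤ β) (hB : B ≤ β) (hE : E ≤ β) (hp : M * B ≤ β)
    (e0 : s .n = un n) (e1 : s .M = un M) (e2 : s .B = un B) (e3 : s .E = un E)
    (y1 : s .l = []) (y2 : s .k = []) (y3 : s .a = []) (y4 : s .j = []) (y5 : s .b = [])
    (z1 : s .x = []) (z2 : s .y = []) (z3 : s .z = [])
    (z4 : s .p = []) (z5 : s .c = []) (z6 : s .t = []) (z7 : s .t' = []) :
    Emit β .out (loops w0 w1) s (table w0 w1 n M B E) := by
  refine Emit.forD (by simp) (by simp) (by simp) (by simp) (hn.trans hM) e0 z6 y1 _ ?_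
  intro l hl v1
  refine Emit.forD (by simp) (by simp) (by simp) (by simp) hB (by simp [*]) (by simp [*])
    (by simp [*]) _ ?_
  intro k hk v2
  refine Emit.forD (by simp) (by simp) (by simp) (by simp) hE (by simp [*]) (by simp [*])
    (by simp [*]) _ ?_
  intro a ha v3
  refine Emit.forD (by simp) (by simp) (by simp) (by simp) hB (by simp [*]) (by simp [*])
    (by simp [*]) _ ?_
  intro j hj v4
  refine Emit.forD (by simp) (by simp) (by simp) (by simp) hE (by simp [*]) (by simp [*])
    (by simp [*]) _ ?_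
  intro b hb v5
  have : M * j + l + 1 ≤ β := by
    have : M * (j + 1) ≤ M * B := Nat.mul_le_mul_left _ hj
    rw [Nat.mul_succ] at this
    omega
  exact emit_entry w0 w1 hM (by omega) (by omega) (by omega) (by omega) (by omega) this
    (by simp [*]) (by simp [*]) (by simp [*]) (by simp [*]) (by simp [*]) (by simp [*])
    (by simp [*]) (by simp [*]) (by simp [*]) (by simp [*]) (by simp [*]) (by simp [*])
    (by simp [*])

def readIn : Prog Reg :=
  .seq (.push .M [true, true]) <|
  .seq (down .inp (.seq (.push .n [true]) (.push .M [true, true]))) <| .seq (.pop .inp) <|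
  .seq (down .inp (.push .M [true, true])) (.pop .inp)

theorem run_readIn {β n s : ℕ} (hn : n ≤ β) (hs : s ≤ β) :
    Run β readIn (update (fun _ => []) .inp (un n ++ false :: (un s ++ [false])))
      (update (update (fun _ => []) .n (un n)) .M (un (2 * (n + s + 1)))) := by
  refine Run.seq (Run.push _ _ _) ?_
  have p1 := Run.down' (β := β) (r := Reg.inp)
    (P := .seq (.push .n [true]) (.push .M [true, true]))
    (fun i => update (update (fun _ => []) .n (un (n - i))) .M (un (2 * (n - i + 1))))
    (false :: (un s ++ [false])) n hn rfl (by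
      intro i hi
      refine Run.seq (Run.push _ _ _) ((Run.push _ _ _).of_eq ?_)
      rw [show n - i = n - (i + 1) + 1 by omega]
      funext r
      cases r <;> simp [un_succ, Nat.mul_succ])
  refine Run.seq (p1.of_eq' ?_) ?_
  · funext r
    cases r <;> simp [un_succ]
  refine Run.seq (Run.pop _ _) ?_
  have p2 := Run.down' (β := β) (r := Reg.inp) (P := .push .M [true, true])
    (fun i => update (update (fun _ => []) .n (un n)) .M (un (2 * (n + (s - i) + 1))))
    [false] s hs rfl (by
      intro i hi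
      refine (Run.push _ _ _).of_eq ?_
      rw [show s - i = s - (i + 1) + 1 by omega]
      funext r
      cases r <;> simp [un_succ, Nat.mul_succ, ← Nat.add_assoc])
  refine Run.seq (p2.of_eq' ?_) ((Run.pop _ _).of_eq ?_)
  · funext r
    cases r <;> simp
  · funext r
    cases r <;> simp

/-- `d := r ^ 3`. -/
def cube (r d : Reg) : Prog Reg :=
  .seq (addTo r .x .t) <| .seq (mulTo r .x .y .t .t') <| .seq (mulTo r .y d .t .t') <|
  .seq (clear .x) (clear .y)

theorem run_cube {β : ℕ} {r d : Reg} (hr : r = .M ∧ d = .B ∨ r = .B ∧ d = .E) {s : St Reg} {m : ℕ}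
    (h1 : m ≤ β) (h2 : m * m ≤ β) (e : s r = un m) (z0 : s d = []) (z1 : s .x = [])
    (z2 : s .y = []) (z6 : s .t = []) (z7 : s .t' = []) :
    Run β (cube r d) s (update s d (un (m ^ 3))) := by
  have h3 : m * (m * m) = m ^ 3 := by ring
  rcases hr with ⟨rfl, rfl⟩ | ⟨rfl, rfl⟩
  all_goals
    refine Run.seq (Run.addTo (by simp) (by simp) (by simp) h1 e z6) ?_
    refine Run.seq (Run.mulTo (by simp) (by simp) (by simp) (by simp) (by simp) (by simp) (by simp)
      (by simp) (by simp) (by simp) h1 h1 (by simp [*]) (by simp [*]) (by simp [*])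
      (by simp [*])) ?_
    refine Run.seq (Run.mulTo (by simp) (by simp) (by simp) (by simp) (by simp) (by simp) (by simp)
      (by simp) (by simp) (by simp) h1 h2 (by simp [*]) (by simp [*]) (by simp [*])
      (by simp [*])) ?_
    refine Run.seq (Run.clear h1 (by simp [*])) ((Run.clear h2 (by simp [*])).of_eq ?_)
    funext r
    cases r <;> simp [*]

def mainProg (w0 w1 : List Bool) : Prog Reg :=
  .seq readIn <| .seq (cube .M .B) <| .seq (cube .B .E) <| .seq (loops w0 w1) <|
  .seq (.push .out [false]) <| .seq (mulTo .B .E .out .t .t') <| .seq (.push .out [true, false]) <|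
  .seq (clear .n) <| .seq (clear .M) <| .seq (clear .B) (clear .E)

theorem run_main (w0 w1 : List Bool) {β n s M : ℕ} (hM : M = 2 * (n + s + 1)) (hβ : M ^ 9 ≤ β) :
    Run β (mainProg w0 w1) (update (fun _ => []) .inp (un n ++ false :: (un s ++ [false])))
      (update (fun _ => []) .out
        (true :: false :: (un (M ^ 3 * (M ^ 3) ^ 3) ++
          false :: table w0 w1 n M (M ^ 3) ((M ^ 3) ^ 3)))) := by
  have hM1 : 1 ≤ M := by omega
  have hp : ∀ e ≤ 9, M ^ e ≤ β := fun e he => (Nat.pow_le_pow_right hM1 he).trans hβ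
  have b1 : M ≤ β := by simpa using hp 1 (by norm_num)
  have b2 : M * M ≤ β := by simpa [pow_two] using hp 2 (by norm_num)
  have b3 : M ^ 3 ≤ β := hp 3 (by norm_num)
  have b4 : M * M ^ 3 ≤ β := by
    rw [show M * M ^ 3 = M ^ 4 by ring]
    exact hp 4 (by norm_num)
  have b6 : M ^ 3 * M ^ 3 ≤ β := by
    rw [show M ^ 3 * M ^ 3 = M ^ 6 by ring]
    exact hp 6 (by norm_num)
  have b9 : (M ^ 3) ^ 3 ≤ β := by
    rw [show (M ^ 3) ^ 3 = M ^ 9 by ring]
    exact hβ
  have hn : n ≤ M := by omega
  refine Run.seq (run_readIn (by omega) (by omega)) ?_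
  rw [← hM]
  clear hM hp hM1 hβ
  refine Run.seq (run_cube (Or.inl ⟨rfl, rfl⟩) b1 b2 (by simp) (by simp) (by simp) (by simp)
    (by simp) (by simp)) ?_
  refine Run.seq (run_cube (Or.inr ⟨rfl, rfl⟩) b3 b6 (by simp) (by simp) (by simp) (by simp)
    (by simp) (by simp)) ?_
  refine Run.seq (emit_loops w0 w1 hn b1 b3 b9 b4 (by simp) (by simp) (by simp) (by simp)
    (by simp) (by simp) (by simp) (by simp) (by simp) (by simp) (by simp) (by simp) (by simp)
    (by simp) (by simp) (by simp)) ?_
  refine Run.seq (Run.push _ _ _) ?_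
  refine Run.seq (Run.mulTo (by simp) (by simp) (by simp) (by simp) (by simp) (by simp) (by simp)
      (by simp) (by simp) (by simp) b3 b9 (by simp) (by simp) (by simp) (by simp)) ?_
  refine Run.seq (Run.push _ _ _) ?_
  refine Run.seq (Run.clear (hn.trans b1) (by simp)) ?_
  refine Run.seq (Run.clear b1 (by simp)) ?_
  refine Run.seq (Run.clear b3 (by simp)) ((Run.clear b9 (by simp)).of_eq ?_)
  funext r
  cases r <;> simp

end Vale.Agent.P314
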