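import Vale.Agent.P314.Defs
import Mathlib.LinearAlgebra.Matrix.Notation
import Mathlib.LinearAlgebra.FiniteDimensional.Lemmas
import Mathlib.LinearAlgebra.FreeModule.Finite.Matrix
import Mathlib.LinearAlgebra.Dimension.Constructions

/-! Left quotients in the free algebra. -/

namespace Vale.Agent.P314

open FreeAlgebra

variable {F : Type*} [Field F] {n : ℕ}

noncomputable def eps : FreeAlgebra F (Fin n) →ₐ[F] F := FreeAlgebra.lift F (fun _ => 0)

noncomputable def Phi (l : Fin n) :
    FreeAlgebra F (Fin n) →ₐ[F] Matrix (Fin 2) (Fin 2) (FreeAlgebra F (Fin n)) :=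
  FreeAlgebra.lift F (fun i => !![0, if i = l then 1 else 0; 0, ι F i])

theorem Phi_spec (l : Fin n) (f : FreeAlgebra F (Fin n)) :
    Phi l f 0 0 = algebraMap F _ (eps f) ∧ Phi l f 1 0 = 0 ∧ Phi l f 1 1 = f := by
  induction f using FreeAlgebra.induction with
  | grade0 r => simp [Matrix.algebraMap_matrix_apply]
  | grade1 x => simp [Phi, eps]
  | mul a b ha hb =>
    simp only [map_mul, Matrix.mul_apply, Fin.sum_univ_two, ha.1, ha.2.1, ha.2.2, hb.1, hb.2.1,
      hb.2.2]
    simp
  | add a b ha hb =>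
    simp only [map_add, Matrix.add_apply, ha.1, ha.2.1, ha.2.2, hb.1, hb.2.1, hb.2.2]
    simp

/-- The left quotient by the variable `x_l`. -/
noncomputable def Dq (l : Fin n) : FreeAlgebra F (Fin n) →ₗ[F] FreeAlgebra F (Fin n) where
  toFun f := Phi l f 0 1
  map_add' a b := by simp
  map_smul' c a := by simp

theorem Dq_mul (l : Fin n) (f g : FreeAlgebra F (Fin n)) :
    Dq l (f * g) = eps f • Dq l g + Dq l f * g := by
  show Phi l (f * g) 0 1 = eps f • Phi l g 0 1 + Phi l f 0 1 * g
  rw [map_mul, Matrix.mul_apply, Fin.sum_univ_two, (Phi_spec l f).1, (Phi_spec l g).2.2,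
    Algebra.smul_def]

theorem Dq_algebraMap (l : Fin n) (a : F) : Dq l (algebraMap F (FreeAlgebra F (Fin n)) a) = 0 := by
  show Phi l _ 0 1 = 0
  simp [Matrix.algebraMap_matrix_apply]

theorem Dq_one (l : Fin n) : Dq l (1 : FreeAlgebra F (Fin n)) = 0 := by
  simpa using Dq_algebraMap l (1 : F)

theorem Dq_ι (l i : Fin n) : Dq l (ι F i) = if i = l then 1 else 0 := by
  show Phi l _ 0 1 = _
  simp [Phi]

theorem decomp (f : FreeAlgebra F (Fin n)) :
    f = algebraMap F _ (eps f) + ∑ l, ι F l * Dq l f := by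
  induction f using FreeAlgebra.induction with
  | grade0 r => simp [Dq_algebraMap]
  | grade1 x => simp [Dq_ι, eps]
  | mul a b ha hb =>
    have e : a * b = algebraMap F _ (eps a) * b + (∑ l, ι F l * Dq l a) * b := by
      rw [← add_mul, ← ha]
    have e2 : algebraMap F _ (eps a) * b = algebraMap F _ (eps a) *
        (algebraMap F _ (eps b) + ∑ l, ι F l * Dq l b) := by rw [← hb]
    conv_lhs => rw [e, e2]
    simp only [Dq_mul, mul_add, Finset.sum_add_distrib, map_mul, Finset.mul_sum, Finset.sum_mul,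
      ← Algebra.smul_def, mul_smul_comm, mul_assoc, add_assoc]
  | add a b ha hb =>
    conv_lhs => rw [ha, hb]
    simp only [map_add, mul_add, Finset.sum_add_distrib]
    abel

/-- Iterated quotients. -/
noncomputable def Dw : List (Fin n) → FreeAlgebra F (Fin n) → FreeAlgebra F (Fin n)
  | [], f => f
  | l :: v, f => Dq l (Dw v f)

theorem Dw_append (v : List (Fin n)) (l : Fin n) (f : FreeAlgebra F (Fin n)) :
    Dw (v ++ [l]) f = Dw v (Dq l f) := by
  induction v with
  | nil => rfl
  | cons a v ih => simp [Dw, ih]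

def Nil : ℕ → FreeAlgebra F (Fin n) → Prop
  | 0, f => f = 0
  | m + 1, f => ∀ l, Nil m (Dq l f)

theorem Nil.zero (m : ℕ) : Nil m (0 : FreeAlgebra F (Fin n)) := by
  induction m with
  | zero => rfl
  | succ m ih => intro l; simpa using ih

theorem Nil.add {m : ℕ} {f g : FreeAlgebra F (Fin n)} (hf : Nil m f) (hg : Nil m g) :
    Nil m (f + g) := by
  induction m generalizing f g with
  | zero =>
    rw [show f = 0 from hf, show g = 0 from hg]
    exact add_zero _
  | succ m ih =>
    intro l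
    rw [map_add]
    exact ih (hf l) (hg l)

theorem Nil.smul {m : ℕ} (c : F) {f : FreeAlgebra F (Fin n)} (hf : Nil m f) : Nil m (c • f) := by
  induction m generalizing f with
  | zero =>
    rw [show f = 0 from hf]
    exact smul_zero _
  | succ m ih =>
    intro l
    rw [map_smul]
    exact ih (hf l)

theorem Nil.succ {m : ℕ} {f : FreeAlgebra F (Fin n)} (hf : Nil m f) : Nil (m + 1) f := by
  induction m generalizing f with
  | zero =>
    rw [show f = 0 from hf]
    exact Nil.zero _
  | succ m ih => exact fun l => ih (hf l)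

theorem Nil.mono {m m' : ℕ} {f : FreeAlgebra F (Fin n)} (hf : Nil m f) (h : m ≤ m') :
    Nil m' f := by
  induction h with
  | refl => exact hf
  | step _ ih => exact ih.succ

theorem Nil.mul {a b : ℕ} {f g : FreeAlgebra F (Fin n)} (hf : Nil a f) (hg : Nil b g) :
    Nil (b + a) (f * g) := by
  induction a generalizing f with
  | zero =>
    rw [show f = 0 from hf, zero_mul]
    exact Nil.zero _
  | succ a ih =>
    intro l
    rw [Dq_mul]
    exact (((hg.succ l).mono (Nat.le_add_right b a)).smul _).add (ih (hf l))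

theorem exists_nil (f : FreeAlgebra F (Fin n)) : ∃ m, Nil m f := by
  induction f using FreeAlgebra.induction with
  | grade0 r => exact ⟨1, fun l => Dq_algebraMap l r⟩
  | grade1 x =>
    refine ⟨2, fun l l' => ?_⟩
    show Dq l' _ = 0
    rw [Dq_ι]
    split_ifs
    · exact Dq_one _
    · exact map_zero _
  | mul a b ha hb =>
    obtain ⟨x, hx⟩ := ha
    obtain ⟨y, hy⟩ := hb
    exact ⟨_, hx.mul hy⟩
  | add a b ha hb =>
    obtain ⟨x, hx⟩ := ha
    obtain ⟨y, hy⟩ := hb
    exact ⟨x + y, (hx.mono (by omega)).add (hy.mono (by omega))⟩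

theorem Nil.Dw_eq_zero {m : ℕ} {f : FreeAlgebra F (Fin n)} (hf : Nil m f) (v : List (Fin n))
    (hv : m ≤ v.length) : Dw v f = 0 := by
  induction v using List.reverseRecOn generalizing m f with
  | nil => exact hf.mono (m' := 0) hv
  | append_singleton v l ih =>
    rw [Dw_append]
    exact ih (hf.mono (m' := v.length + 1) (by simpa using hv) l) le_rfl

theorem eq_zero_of_eps {f : FreeAlgebra F (Fin n)} (h : ∀ v, eps (Dw v f) = 0) : f = 0 := by
  obtain ⟨m, hm⟩ := exists_nil f
  induction m generalizing f with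
  | zero => exact hm
  | succ m ih =>
    have h1 : ∀ l, Dq l f = 0 := fun l => ih (fun v => by rw [← Dw_append]; exact h _) (hm l)
    have h2 : eps f = 0 := h []
    rw [decomp f]
    simp [h1, h2]

theorem exists_space (φ : NCFormula F n) : ∃ V : Submodule F (FreeAlgebra F (Fin n)),
    FiniteDimensional F V ∧ Module.finrank F V ≤ 2 * φ.size ∧ φ.poly ∈ V ∧
      ∀ l, ∀ g ∈ V, Dq l g ∈ V := by
  classical
  have two : ∀ x : FreeAlgebra F (Fin n), (∀ l, ∃ c : F, Dq l x = c • 1) →
      ∃ V : Submodule F (FreeAlgebra F (Fin n)),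
        FiniteDimensional F V ∧ Module.finrank F V ≤ 2 * 1 ∧ x ∈ V ∧ ∀ l, ∀ g ∈ V, Dq l g ∈ V := by
    intro x hx
    refine ⟨Submodule.span F ({x, 1} : Finset (FreeAlgebra F (Fin n))), inferInstance,
      (finrank_span_finset_le_card _).trans Finset.card_le_two,
      Submodule.subset_span (by simp), ?_⟩
    intro l g hg
    simp only [Finset.coe_insert, Finset.coe_singleton, Submodule.mem_span_pair] at hg ⊢
    obtain ⟨a, b, rfl⟩ := hg
    obtain ⟨c, hc⟩ := hx l
    exact ⟨0, a * c, by simp [hc, Dq_one, mul_smul]⟩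
  induction φ with
  | var i =>
    refine two _ fun l => ?_
    simp only [NCFormula.poly, Dq_ι]
    split_ifs
    · exact ⟨1, by simp⟩
    · exact ⟨0, by simp⟩
  | const a => exact two _ fun l => ⟨0, by simp [NCFormula.poly, Dq_algebraMap]⟩
  | add φ ψ ih1 ih2 =>
    obtain ⟨V, hV, h1, h2, h3⟩ := ih1
    obtain ⟨W, hW, k1, k2, k3⟩ := ih2
    refine ⟨V ⊔ W, inferInstance, ?_, Submodule.add_mem_sup h2 k2, ?_⟩
    · have := Submodule.finrank_add_le_finrank_add_finrank V W
      simp only [NCFormula.size]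
      omega
    · intro l g hg
      obtain ⟨a, ha, b, hb, rfl⟩ := Submodule.mem_sup.1 hg
      rw [map_add]
      exact Submodule.add_mem_sup (h3 l a ha) (k3 l b hb)
  | mul φ ψ ih1 ih2 =>
    obtain ⟨V, hV, h1, h2, h3⟩ := ih1
    obtain ⟨W, hW, k1, k2, k3⟩ := ih2
    refine ⟨V.map (LinearMap.mulRight F ψ.poly) ⊔ W, inferInstance, ?_,
      Submodule.mem_sup_left ⟨_, h2, rfl⟩, ?_⟩
    · have := Submodule.finrank_add_le_finrank_add_finrank
        (V.map (LinearMap.mulRight F ψ.poly)) W
      have := Submodule.finrank_map_le (LinearMap.mulRight F ψ.poly) V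
      simp only [NCFormula.size]
      omega
    · intro l g hg
      obtain ⟨a, ⟨a', ha, rfl⟩, b, hb, rfl⟩ := Submodule.mem_sup.1 hg
      rw [map_add, LinearMap.mulRight_apply, Dq_mul, add_comm (eps a' • _), add_assoc]
      exact Submodule.add_mem_sup ⟨_, h3 l a' ha, rfl⟩
        (W.add_mem (W.smul_mem _ (k3 l _ k2)) (k3 l b hb))

/-- The space of functions on words attached to a polynomial, over an extension field. -/
theorem exists_funSpace (f : FreeAlgebra F (Fin n)) (V : Submodule F (FreeAlgebra F (Fin n)))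
    [FiniteDimensional F V] (h2 : f ∈ V) (h3 : ∀ l, ∀ g ∈ V, Dq l g ∈ V)
    (K : Type*) [Field K] [Algebra F K] :
    ∃ U : Submodule K (List (Fin n) → K), FiniteDimensional K U ∧
      Module.finrank K U ≤ Module.finrank F V ∧ (∀ l, ∀ y ∈ U, (fun v => y (l :: v)) ∈ U) ∧
      (∃ m, ∀ y ∈ U, ∀ v : List (Fin n), m ≤ v.length → y v = 0) ∧
      (fun v => algebraMap F K (eps (Dw v f))) ∈ U := by
  have hD : ∀ v, Dw v f ∈ V := by
    intro v
    induction v with
    | nil => exact h2
    | cons l v ih => exact h3 l _ ih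
  let Θ : (V →ₗ[F] K) →ₗ[K] (List (Fin n) → K) :=
    { toFun := fun μ v => μ ⟨Dw v f, hD v⟩
      map_add' := fun _ _ => rfl
      map_smul' := fun _ _ => rfl }
  refine ⟨LinearMap.range Θ, inferInstance, ?_, ?_, ?_, ?_⟩
  · refine (LinearMap.finrank_range_le Θ).trans ?_
    rw [Module.finrank_linearMap_self]
  · rintro l y ⟨μ, rfl⟩
    exact ⟨μ ∘ₗ (Dq l).restrict (h3 l), rfl⟩
  · obtain ⟨m, hm⟩ := exists_nil f
    refine ⟨m, ?_⟩
    rintro y ⟨μ, rfl⟩ v hv
    show μ ⟨Dw v f, hD v⟩ = 0
    rw [← map_zero μ]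
    congr 1
    exact Subtype.ext (hm.Dw_eq_zero v hv)
  · exact ⟨Algebra.linearMap F K ∘ₗ eps.toLinearMap ∘ₗ V.subtype, rfl⟩

end Vale.Agent.P314
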