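import Vale.Agent.P314.Diff
import Vale.Agent.P314.Orbit
import Mathlib.Algebra.Polynomial.BigOperators

/-! The zero estimate. -/

namespace Vale.Agent.P314

open Polynomial

variable {ι : Type*} [Fintype ι]

theorem natDegree_evol {R : Type*} [CommRing R] (δ : ℕ → R[X]) (a : ℕ → ι → R[X])
    (y : List ι → R) (e : ℕ → ℕ) (h1 : ∀ i, (δ i).natDegree ≤ e i)
    (h2 : ∀ i l, (a i l).natDegree ≤ e i) (k : ℕ) (v : List ι) :
    (evol δ a (fun v => C (y v)) k v).natDegree ≤ ∑ i ∈ Finset.range k, e i := by
  induction k generalizing v with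
  | zero => simp [evol]
  | succ k ih =>
    rw [Finset.sum_range_succ, add_comm _ (e k)]
    refine natDegree_add_le_of_degree_le (natDegree_mul_le.trans (add_le_add (h1 k) (ih v))) ?_
    exact natDegree_sum_le_of_forall_le _ _ fun l _ =>
      natDegree_mul_le.trans (add_le_add (h2 k l) (ih _))

theorem natDegree_det_le {R : Type*} [CommRing R] {N : ℕ} (G : Matrix (Fin N) (Fin N) R[X])
    (e : ℕ) (h : ∀ i j, (G i j).natDegree ≤ e) : G.det.natDegree ≤ N * e := by
  rw [Matrix.det_apply']
  refine natDegree_sum_le_of_forall_le _ _ fun σ _ => natDegree_mul_le.trans ?_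
  rw [natDegree_intCast, zero_add]
  refine (natDegree_prod_le _ _).trans ?_
  simpa using Finset.sum_le_card_nsmul Finset.univ (fun i => (G (σ i) i).natDegree) e
    fun i _ => h _ _

theorem evol_back {K : Type*} [Field K] (δ : ℕ → K) (a : ℕ → ι → K) (hδ : ∀ k, δ k ≠ 0)
    (y : List ι → K) (m : ℕ) (hm : ∀ k (v : List ι), m ≤ v.length → evol δ a y k v = 0) (k : ℕ)
    (h : evol δ a y k = 0) : y = 0 := by
  induction k with
  | zero => exact h
  | succ k ih =>
    apply ih
    have : ∀ d : ℕ, ∀ v : List ι, m ≤ v.length + d → evol δ a y k v = 0 := by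
      intro d
      induction d with
      | zero => exact fun v hv => hm k v hv
      | succ d ihd =>
        intro v hv
        have h1 := congrFun h v
        simp only [evol, Pi.zero_apply] at h1
        rw [Finset.sum_eq_zero (fun l _ => by
          rw [ihd _ (by simp only [List.length_cons]; omega), mul_zero]), add_zero] at h1
        exact (mul_eq_zero.1 h1).resolve_left (hδ k)
    funext v
    exact this m v (by omega)

theorem natDegree_lin {K : Type*} [Field K] (c : K) : (lin c).natDegree ≤ 1 := by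
  unfold lin
  compute_degree

theorem natDegree_prod_lin {K : Type*} [Field K] (s : Finset ι) (c : ι → K) :
    (∏ l ∈ s, lin (c l)).natDegree ≤ Fintype.card ι := by
  refine (natDegree_prod_le _ _).trans ?_
  refine (Finset.sum_le_card_nsmul s _ 1 fun i _ => natDegree_lin _).trans ?_
  simpa using Finset.card_le_univ s

theorem lin_comp {K : Type*} [Field K] (c Q : K) : (lin c).comp (C Q * X) = lin (c * Q) := by
  simp [lin, mul_assoc]

theorem zero_estimate [DecidableEq ι] {K : Type*} [Field K] {Q : K} (hQ : Q ≠ 0)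
    (hQ' : ∀ t : ℤ, Q ^ t = 1 → t = 0) (c : ι → K) (hc0 : ∀ l, c l ≠ 0)
    (hc : ∀ l l' (t : ℤ), c l * Q ^ t = c l' → t = 0 ∧ l = l')
    (hne : ∀ (k : ℕ) l, 1 - c l * Q ^ k ≠ 0)
    (U : Submodule K (List ι → K)) [FiniteDimensional K U] (N : ℕ) (hN : Module.finrank K U ≤ N)
    (hsh : ∀ l, ∀ y ∈ U, (fun v => y (l :: v)) ∈ U) (m : ℕ)
    (hm : ∀ y ∈ U, ∀ v : List ι, m ≤ v.length → y v = 0) (y : List ι → K) (hy : y ∈ U)
    (hz : ∀ k < Fintype.card ι * N ^ 2 + N, evol (fun k => ∏ l, (1 - c l * Q ^ k))
      (fun k l => ∏ l' ∈ Finset.univ.erase l, (1 - c l' * Q ^ k)) y k [] = 0) : y = 0 := by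
  set N' := Module.finrank K U with hN'
  let bb := Module.finBasis K U
  let b : Fin N' → List ι → K := fun r => (bb r : List ι → K)
  have hb : LinearIndependent K b := bb.linearIndependent.map' U.subtype U.ker_subtype
  have hrep : ∀ w ∈ U, ∃ d : Fin N' → K, ∑ r, d r • b r = w := by
    intro w hw
    refine ⟨fun r => bb.repr ⟨w, hw⟩ r, ?_⟩
    have := congrArg U.subtype (bb.sum_repr ⟨w, hw⟩)
    rw [map_sum] at this
    exact this
  let δP : ℕ → K[X] := fun i => ∏ l, lin (c l * Q ^ i)
  let aP : ℕ → ι → K[X] := fun i l => ∏ l' ∈ Finset.univ.erase l, lin (c l' * Q ^ i)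
  let G : Matrix (Fin N') (Fin N') K[X] :=
    Matrix.of fun j r => evol δP aP (fun v => C (b r v)) j []
  have hG : G.det ≠ 0 := by
    let L := FractionRing K[X]
    let τ : K[X] ≃ₐ[K] K[X] := algEquivOfCompEqX (C Q * X) (C Q⁻¹ * X)
      (by simp [← mul_assoc, ← C_mul, hQ]) (by simp [← mul_assoc, ← C_mul, hQ])
    let σ : L ≃ₐ[K] L := IsFractionRing.algEquivOfAlgEquiv τ
    have hσ : ∀ a : K[X], σ (algebraMap K[X] L a) = algebraMap K[X] L (a.comp (C Q * X)) := by
      intro a
      rw [IsFractionRing.algEquivOfAlgEquiv_algebraMap, algEquivOfCompEqX_apply, comp_eq_aeval]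
    have h := det_ne_zero σ (fun i => algebraMap K[X] L (δP i))
      (fun i l => algebraMap K[X] L (aP i l))
      (by
        rw [Ne, IsFractionRing.to_map_eq_zero_iff]
        exact Finset.prod_ne_zero_iff.2 fun l _ => lin_ne_zero _)
      (by
        intro i
        simp only [hσ, δP, Polynomial.prod_comp, lin_comp, pow_succ, mul_assoc])
      (by
        intro i l
        simp only [hσ, aP, Polynomial.prod_comp, lin_comp, pow_succ, mul_assoc])
      (by
        intro ρ κ hκ h
        simp only [δP, aP, pow_zero, mul_one] at h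
        exact no_sum hQ hQ' σ.toRingEquiv hσ c hc0 hc ρ κ hκ h)
      b hb
      (fun l r => (Submodule.mem_span_range_iff_exists_fun K).2 (hrep _ (hsh l _ (bb r).2)))
      m (fun r v hv => hm _ (bb r).2 v hv)
    intro h0
    apply h
    have := (algebraMap K[X] L).map_det G
    rw [h0, map_zero] at this
    rw [this]
    congr 1
    ext j r
    simp only [G, RingHom.mapMatrix_apply, Matrix.map_apply, Matrix.of_apply, evol_map]
    simp only [C_eq_algebraMap, ← IsScalarTower.algebraMap_apply]
  have hdeg : G.det.natDegree ≤ N' * (Fintype.card ι * N') := by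
    refine natDegree_det_le G _ fun j r => ?_
    refine (natDegree_evol δP aP (b r) (fun _ => Fintype.card ι)
      (fun i => natDegree_prod_lin _ _) (fun i l => natDegree_prod_lin _ _) j []).trans ?_
    rw [Finset.sum_const, Finset.card_range, smul_eq_mul, mul_comm]
    exact Nat.mul_le_mul_left _ j.2.le
  obtain ⟨k, hk⟩ : ∃ k : Fin (N' * (Fintype.card ι * N') + 1), G.det.eval (Q ^ (k : ℕ)) ≠ 0 := by
    by_contra hcon
    push Not at hcon
    refine hG (eq_zero_of_natDegree_lt_card_of_eval_eq_zero _ ?_ hcon (by simpa using hdeg))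
    intro i j e
    have : Q ^ ((i : ℤ) - (j : ℤ)) = 1 := by
      rw [zpow_sub₀ hQ, zpow_natCast, zpow_natCast, show Q ^ (i : ℕ) = Q ^ (j : ℕ) from e,
        div_self (pow_ne_zero _ hQ)]
    have := hQ' _ this
    exact Fin.ext (by omega)
  set δ : ℕ → K := fun k => ∏ l, (1 - c l * Q ^ k) with hδ
  set a : ℕ → ι → K := fun k l => ∏ l' ∈ Finset.univ.erase l, (1 - c l' * Q ^ k) with ha
  obtain ⟨d, hd⟩ := hrep _ (evol_mem δ a U hsh hy k)
  have hd0 : d = 0 := by
    have h1 := (evalRingHom (Q ^ (k : ℕ))).map_det G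
    rw [coe_evalRingHom] at h1
    rw [h1] at hk
    refine Matrix.eq_zero_of_mulVec_eq_zero hk ?_
    funext j
    have h2 := hz (k + j) (by
      have h3 : N' * (Fintype.card ι * N') ≤ Fintype.card ι * N ^ 2 := by
        rw [show N' * (Fintype.card ι * N') = Fintype.card ι * N' ^ 2 by ring]
        gcongr
      have := k.2
      have := j.2
      omega)
    rw [evol_shift, ← hd, evol_sum] at h2
    simp only [Matrix.mulVec, dotProduct, RingHom.mapMatrix_apply, Matrix.map_apply, G,
      Matrix.of_apply, evol_map, Pi.zero_apply]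
    rw [← h2]
    refine Finset.sum_congr rfl fun r _ => ?_
    rw [mul_comm]
    congr 2
    · funext i
      simp [δP, hδ, lin, pow_add, mul_assoc, mul_comm (Q ^ i)]
    · funext i l
      simp [aP, ha, lin, pow_add, mul_assoc, mul_comm (Q ^ i)]
    · funext v
      simp
  refine evol_back δ a (fun k => Finset.prod_ne_zero_iff.2 fun l _ => hne k l) y m
    (fun k v hv => hm _ (evol_mem δ a U hsh hy k) v hv) k ?_
  rw [← hd, hd0]
  simp

end Vale.Agent.P314
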