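import Vale.Agent.P314.Quot
import Vale.Agent.P314.Zero
import Vale.Agent.P314.Program
import Mathlib.RingTheory.PowerSeries.Basic

/-! The explicit matrices form a hitting tuple. -/

namespace Vale.Agent.P314

open Polynomial

variable {F : Type*} [Field F] {n : ℕ}

/-- The power series `1 / (1 - q ^ p)`. -/
noncomputable def geo (F : Type*) [Field F] (p : ℕ) : PowerSeries F :=
  PowerSeries.mk fun a => if p ∣ a then 1 else 0

theorem geo_mul {p : ℕ} (hp : 0 < p) : (1 - PowerSeries.X ^ p) * geo F p = 1 := by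
  ext a
  rw [sub_mul, one_mul, map_sub, PowerSeries.coeff_X_pow_mul', PowerSeries.coeff_one]
  simp only [geo, PowerSeries.coeff_mk]
  by_cases ha : a = 0
  · subst ha
    simp [hp.ne']
  · rw [if_neg ha]
    by_cases h : p ≤ a
    · rw [if_pos h]
      simp only [Nat.dvd_sub_iff_left h dvd_rfl, sub_self]
    · rw [if_neg h, if_neg (fun hd => h (Nat.le_of_dvd (by omega) hd)), sub_zero]

/-- Weighted strict partial sums. -/
noncomputable def Sop (F : Type*) [Field F] (M : ℕ) (l : Fin n) :
    Module.End F (ℕ → PowerSeries F) where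
  toFun φ k := ∑ j ∈ Finset.range k, geo F (M * j + l + 1) * φ j
  map_add' φ ψ := by
    funext k
    simp [mul_add, Finset.sum_add_distrib]
  map_smul' c φ := by
    funext k
    simp [Finset.smul_sum]

/-- The matrices of the hitting set. -/
def Tmat (F : Type*) [Field F] (M R E : ℕ) (l : Fin n) : Matrix (Fin (R * E)) (Fin (R * E)) F :=
  Matrix.of fun i i' => if entryB M l (i / E) (i % E) (i' / E) (i' % E) then 1 else 0

noncomputable def trunc' (F : Type*) [Field F] (R E : ℕ) :
    (ℕ → PowerSeries F) →ₗ[F] (Fin (R * E) → F) where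
  toFun φ i := PowerSeries.coeff (i % E) (φ (i / E))
  map_add' φ ψ := by
    funext i
    simp
  map_smul' c φ := by
    funext i
    simp

theorem div_mod_aux {R E x : ℕ} (hx : x < E) : (R * E + x) / E = R ∧ (R * E + x) % E = x := by
  have hE : 0 < E := by omega
  constructor
  · rw [add_comm, Nat.add_mul_div_right _ _ hE, Nat.div_eq_of_lt hx, zero_add]
  · rw [add_comm, Nat.add_mul_mod_self_right, Nat.mod_eq_of_lt hx]

theorem sum_range_mul (R E : ℕ) (g : ℕ → ℕ → F) :
    ∑ i ∈ Finset.range (R * E), g (i / E) (i % E) =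
      ∑ j ∈ Finset.range R, ∑ b ∈ Finset.range E, g j b := by
  induction R with
  | zero => simp
  | succ R ih =>
    rw [Nat.succ_mul, Finset.sum_range_add, ih, Finset.sum_range_succ]
    congr 1
    refine Finset.sum_congr rfl fun x hx => ?_
    obtain ⟨h1, h2⟩ := div_mod_aux (R := R) (Finset.mem_range.1 hx)
    rw [h1, h2]

theorem intertwine (M R E : ℕ) (l : Fin n) (φ : ℕ → PowerSeries F) :
    trunc' F R E (Sop F M l φ) = (Tmat F M R E l).mulVec (trunc' F R E φ) := by
  funext i
  have hE : 0 < E := Nat.pos_of_ne_zero (by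
    rintro rfl
    exact absurd i.2 (by simp))
  have hk : (i : ℕ) / E < R := Nat.div_lt_of_lt_mul (lt_of_lt_of_eq i.2 (mul_comm _ _))
  have ha : (i : ℕ) % E < E := Nat.mod_lt _ hE
  simp only [trunc', Sop, LinearMap.coe_mk, AddHom.coe_mk, Matrix.mulVec, dotProduct, Tmat,
    Matrix.of_apply]
  generalize (i : ℕ) / E = k at hk
  generalize (i : ℕ) % E = a at ha
  rw [Fin.sum_univ_eq_sum_range (fun i' => (if entryB M l k a (i' / E) (i' % E) then (1 : F)
    else 0) * PowerSeries.coeff (i' % E) (φ (i' / E))),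
    sum_range_mul R E (fun j b => (if entryB M l k a j b then (1 : F) else 0) *
      PowerSeries.coeff b (φ j)), map_sum]
  rw [← Finset.sum_subset (Finset.range_subset_range.2 hk.le)]
  · refine Finset.sum_congr rfl fun j hj => ?_
    rw [mul_comm, PowerSeries.coeff_mul, Finset.Nat.sum_antidiagonal_eq_sum_range_succ
      (fun x y => PowerSeries.coeff x (φ j) * PowerSeries.coeff y (geo F (M * j + l + 1))),
      ← Finset.sum_subset (Finset.range_subset_range.2 (Nat.succ_le_of_lt ha))]
    · refine Finset.sum_congr rfl fun b hb => ?_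
      have h1 := Finset.mem_range.1 hj
      have h2 : b ≤ a := Nat.le_of_lt_succ (Finset.mem_range.1 hb)
      simp [geo, entryB, h1, h2]
    · intro b _ hb
      have h2 : ¬ b ≤ a := fun h => hb (Finset.mem_range.2 (Nat.lt_succ_of_le h))
      simp [entryB, h2]
  · intro j _ hj
    have h1 : ¬ j < k := fun h => hj (Finset.mem_range.2 h)
    simp [entryB, h1]

theorem intertwine_lift (M R E : ℕ) (f : FreeAlgebra F (Fin n)) (φ : ℕ → PowerSeries F) :
    trunc' F R E (FreeAlgebra.lift F (Sop F M) f φ) =
      (FreeAlgebra.lift F (Tmat F M R E) f).mulVec (trunc' F R E φ) := by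
  induction f using FreeAlgebra.induction generalizing φ with
  | grade0 r =>
    simp [Algebra.algebraMap_eq_smul_one, Matrix.smul_mulVec]
  | grade1 x => simp [intertwine]
  | mul a b ha hb => simp only [map_mul, Module.End.mul_apply, ha, hb, Matrix.mulVec_mulVec]
  | add a b ha hb => simp only [map_add, LinearMap.add_apply, ha, hb, Matrix.add_mulVec]

/-- The iterated sums attached to a polynomial. -/
noncomputable def Gs (M : ℕ) (f : FreeAlgebra F (Fin n)) : ℕ → PowerSeries F :=
  FreeAlgebra.lift F (Sop F M) f (fun _ => 1)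

theorem Gs_eq (M : ℕ) (f : FreeAlgebra F (Fin n)) (k : ℕ) :
    Gs M f k = PowerSeries.C (eps f) +
      ∑ l : Fin n, ∑ j ∈ Finset.range k, geo F (M * j + l + 1) * Gs M (Dq l f) j := by
  conv_lhs => rw [Gs, decomp f]
  simp only [map_add, map_sum, map_mul, AlgHom.commutes, FreeAlgebra.lift_ι_apply,
    LinearMap.add_apply, LinearMap.sum_apply, Module.End.mul_apply, Pi.add_apply, Finset.sum_apply,
    Module.algebraMap_end_apply, Pi.smul_apply]
  congr 1
  rw [PowerSeries.smul_eq_C_mul, mul_one]

theorem Gs_succ (M : ℕ) (f : FreeAlgebra F (Fin n)) (k : ℕ) :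
    Gs M f (k + 1) = Gs M f k + ∑ l : Fin n, geo F (M * k + l + 1) * Gs M (Dq l f) k := by
  rw [Gs_eq, Gs_eq M f k]
  simp only [Finset.sum_range_succ, Finset.sum_add_distrib, add_assoc]

noncomputable def dhat (F : Type*) [Field F] (n M k : ℕ) : F[X] :=
  ∏ l : Fin n, (1 - X ^ (M * k + l + 1))

noncomputable def ahat (F : Type*) [Field F] (M k : ℕ) (l : Fin n) : F[X] :=
  ∏ l' ∈ Finset.univ.erase l, (1 - X ^ (M * k + l' + 1))

theorem hat_eq (M : ℕ) (f : FreeAlgebra F (Fin n)) (k : ℕ) (v : List (Fin n)) :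
    coeToPowerSeries.ringHom (evol (dhat F n M) (ahat F M) (fun v => C (eps (Dw v f))) k v) =
      coeToPowerSeries.ringHom (∏ j ∈ Finset.range k, dhat F n M j) * Gs M (Dw v f) k := by
  induction k generalizing v with
  | zero =>
    rw [Gs_eq]
    simp [evol]
  | succ k ih =>
    have key : ∀ l : Fin n, coeToPowerSeries.ringHom (dhat F n M k) * geo F (M * k + l + 1) =
        coeToPowerSeries.ringHom (ahat F M k l) := by
      intro l
      rw [dhat, ← Finset.prod_erase_mul Finset.univ _ (Finset.mem_univ l), map_mul, mul_assoc]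
      simp only [map_sub, map_one, map_pow, coeToPowerSeries.ringHom_apply (φ := X), coe_X]
      rw [geo_mul (by omega), mul_one, ahat]
    simp only [evol, map_add, map_mul, map_sum, ih, Gs_succ, Finset.prod_range_succ, ← key, Dw,
      mul_add, Finset.mul_sum]
    congr 1
    · ring
    · exact Finset.sum_congr rfl fun _ _ => by ring

theorem natDegree_hat (M k : ℕ) (hn : n ≤ M) (s : Finset (Fin n)) :
    (∏ l ∈ s, (1 - X ^ (M * k + l + 1) : F[X])).natDegree ≤ M ^ 2 * (k + 1) := by
  refine (natDegree_prod_le _ _).trans ?_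
  refine (Finset.sum_le_card_nsmul s _ (M * (k + 1)) fun l _ => ?_).trans ?_
  · refine (natDegree_sub_le _ _).trans (max_le (by simp) (natDegree_X_pow_le _ |>.trans ?_))
    have := l.2
    rw [Nat.mul_succ]
    omega
  · rw [smul_eq_mul, pow_two, mul_assoc]
    refine Nat.mul_le_mul_right _ ((Finset.card_le_univ s).trans ?_)
    simpa using hn

theorem sum_hat_le (M k : ℕ) : ∑ i ∈ Finset.range k, M ^ 2 * (i + 1) ≤ M ^ 2 * k ^ 2 := by
  induction k with
  | zero => simp
  | succ k ih =>
    rw [Finset.sum_range_succ]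
    nlinarith [Nat.zero_le (M ^ 2 * k)]

theorem hitting (f : FreeAlgebra F (Fin n)) (V : Submodule F (FreeAlgebra F (Fin n)))
    [FiniteDimensional F V] (hfV : f ∈ V) (hV : ∀ l, ∀ g ∈ V, Dq l g ∈ V)
    {M R E N : ℕ} (hN : Module.finrank F V ≤ N) (hM : 0 < M) (hn : n ≤ M)
    (hR : n * N ^ 2 + N ≤ R) (hE : M ^ 2 * R ^ 2 < E)
    (h : FreeAlgebra.lift F (Tmat F M R E) f = 0) : f = 0 := by
  have h1 : ∀ k < R, ∀ a < E, PowerSeries.coeff a (Gs M f k) = 0 := by
    intro k hk a ha
    have := intertwine_lift M R E f (fun _ => 1)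
    rw [h, Matrix.zero_mulVec] at this
    have h2 : k * E + a < R * E := by
      have : (k + 1) * E ≤ R * E := Nat.mul_le_mul_right _ hk
      rw [Nat.succ_mul] at this
      omega
    have h3 := congrFun this ⟨k * E + a, h2⟩
    obtain ⟨e1, e2⟩ := div_mod_aux (R := k) ha
    simp only [trunc', LinearMap.coe_mk, AddHom.coe_mk, e1, e2, Pi.zero_apply] at h3
    exact h3
  have h2 : ∀ k < R, evol (dhat F n M) (ahat F M) (fun v => C (eps (Dw v f))) k [] = 0 := by
    intro k hk
    have hd := (natDegree_evol (dhat F n M) (ahat F M) (fun v => eps (Dw v f))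
      (fun i => M ^ 2 * (i + 1)) (fun i => natDegree_hat M i hn _)
      (fun i l => natDegree_hat M i hn _) k []).trans (sum_hat_le M k)
    have hlt : M ^ 2 * k ^ 2 < E := lt_of_le_of_lt (by gcongr) hE
    have hdvd : (PowerSeries.X : PowerSeries F) ^ E ∣ coeToPowerSeries.ringHom
        (evol (dhat F n M) (ahat F M) (fun v => C (eps (Dw v f))) k []) := by
      rw [hat_eq]
      exact Dvd.dvd.mul_left (PowerSeries.X_pow_dvd_iff.2 (h1 k hk)) _
    rw [PowerSeries.X_pow_dvd_iff] at hdvd
    ext a
    by_cases ha : a < E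
    · have := hdvd a ha
      rwa [coeToPowerSeries.ringHom_apply, coeff_coe] at this
    · exact coeff_eq_zero_of_natDegree_lt (by omega)
  let K := FractionRing F[X]
  let q : K := algebraMap F[X] K X
  have hq : q ≠ 0 := by
    rw [Ne, IsFractionRing.to_map_eq_zero_iff]
    exact X_ne_zero
  have hq1 : ∀ t : ℕ, q ^ t = 1 → t = 0 := by
    intro t ht
    rw [← map_pow, ← map_one (algebraMap F[X] K)] at ht
    have := congrArg natDegree (IsFractionRing.injective F[X] K ht)
    simpa using this
  have hq2 : ∀ t : ℤ, q ^ t = 1 → t = 0 := by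
    intro t ht
    obtain ⟨u, rfl | rfl⟩ := t.eq_nat_or_neg
    · rw [zpow_natCast] at ht
      rw [hq1 u ht]
      rfl
    · rw [zpow_neg, inv_eq_one, zpow_natCast] at ht
      rw [hq1 u ht]
      rfl
  obtain ⟨U, hU, hrank, hsh, ⟨m, hm⟩, hy⟩ := exists_funSpace f V hfV hV K
  have hpow : ∀ (k : ℕ) (l : Fin n), q ^ ((l : ℕ) + 1) * (q ^ M) ^ k = q ^ (M * k + l + 1) := by
    intro k l
    rw [← pow_mul, ← pow_add]
    congr 1
    omega
  have h3 := zero_estimate (Q := q ^ M) (pow_ne_zero _ hq)
    (by
      intro t ht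
      rw [← zpow_natCast, ← zpow_mul] at ht
      have := hq2 _ ht
      rcases mul_eq_zero.1 this with h | h
      · omega
      · exact h)
    (fun l : Fin n => q ^ ((l : ℕ) + 1)) (fun l => pow_ne_zero _ hq)
    (by
      intro l l' t ht
      have e : q ^ (((l : ℕ) + 1 : ℤ) + M * t - ((l' : ℕ) + 1)) = 1 := by
        rw [zpow_sub₀ hq, zpow_add₀ hq, zpow_mul, zpow_natCast]
        norm_cast
        rw [ht, div_self (pow_ne_zero _ hq)]
      have e2 := hq2 _ e
      have hl := l.2
      have hl' := l'.2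
      have ht0 : t = 0 := by
        by_contra h0
        rcases lt_or_gt_of_ne h0 with h0 | h0
        · nlinarith
        · nlinarith
      refine ⟨ht0, Fin.ext ?_⟩
      rw [ht0] at e2
      omega)
    (by
      intro k l e
      rw [hpow, sub_eq_zero] at e
      have := hq1 _ e.symm
      omega)
    U N (hrank.trans hN) hsh m hm _ hy
    (by
      intro k hk
      have := congrArg (algebraMap F[X] K) (h2 k (by simpa using lt_of_lt_of_le hk (by simpa using hR)))
      rw [evol_map, map_zero] at this
      rw [← this]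
      congr 1
      · funext i
        simp only [hpow, dhat, map_prod, map_sub, map_one, map_pow, q]
      · funext i l
        simp only [hpow, ahat, map_prod, map_sub, map_one, map_pow, q])
  refine eq_zero_of_eps fun v => ?_
  have := congrFun h3 v
  simpa using this

end Vale.Agent.P314
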